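import Vale.Agent.P287.H925V.Cross
import Vale.Agent.P287.Theta.ChartTwo

/-!
The gluing theorem for a binary form with discriminant `f κ ψ(x)²`.
-/

namespace Vale.Agent.P287.H925V

open Polynomial Vale.Agent.P287 Vale.Agent.P287.Theta

lemma unit_Cff {ψ : ℂ[X]} (hψ : ψ ≠ 0) : IsUnit (crF (C ψ)) := by
  have h1 : crF (C ψ) = C (algebraMap ℂ[X] FF ψ) := by simp [crF]
  rw [h1]
  refine (isUnit_iff_ne_zero.mpr ?_).map C
  rwa [Ne, map_eq_zero_iff _ (IsFractionRing.injective ℂ[X] FF)]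

lemma isotropic_ff {M : Matrix (Fin 4) (Fin 4) ℂ[X][X]} {N : Matrix (Fin 2) (Fin 2) ℂ[X][X]}
    {g : ℂ[X][X]} {κ : ℂ} {ψ : ℂ[X]} (hM : M.IsSymm) (hN : N.IsSymm) (hκ : κ ≠ 0) (hψ : ψ ≠ 0)
    (hdet : N.det = C (C κ) * C ψ ^ 2 * M.det) (pf : Prime M.det) (df : M.det.natDegree ≠ 0)
    (pg : Prime g) (dg : g.natDegree ≠ 0) (hfg : ¬ M.det ∣ g) (hδ : ¬ M.det ∣ M.adjugate 0 0)
    (hsq : ∃ s c, ¬ g ∣ c ∧ g ∣ c ^ 2 * M.det - s ^ 2) {b : ℂ[X][X]} (hb0 : ¬ M.det ∣ b)
    (hb : M.det ∣ b ^ 2 - M.adjugate 0 0 * g * N 0 0) :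
    ∃ v : Fin 4 → RatK, v ≠ 0 ∧ dotProduct v ((M.map crMap).mulVec v) = 0 := by
  obtain ⟨d0, hd0⟩ := IsAlgClosed.exists_pow_nat_eq κ (n := 2) (by norm_num)
  have hd00 : d0 ≠ 0 := by
    rintro rfl
    apply hκ
    rw [← hd0]
    simp
  have hgf : ¬ g ∣ M.det := fun h1 =>
    hfg (pg.irreducible.associated_of_dvd pf.irreducible h1).symm.dvd
  -- the unit `φ = (d0 ψ)`
  obtain ⟨φ, hφ⟩ : ∃ φ : FF[X], crF (C (C d0) * C ψ) * φ = 1 := by
    have h1 : IsUnit (crF (C (C d0) * C ψ)) := by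
      rw [map_mul]
      exact ((isUnit_CC hd00).map crF).mul (unit_Cff hψ)
    exact h1.exists_right_inv
  have hdet' : (N.map crF).det = crF (C (C d0) * C ψ) ^ 2 * crF M.det := by
    have h1 : C (C κ) * C ψ ^ 2 * M.det = (C (C d0) * C ψ) ^ 2 * M.det := by
      rw [← hd0, C_pow, C_pow]
      ring
    rw [det_crF, hdet, h1, map_mul crF, map_pow crF]
  have hNF := map_symm crF hN
  have hdF := det_crF M
  obtain ⟨s, c, hc, hcs⟩ := hsq
  obtain ⟨w, hw1, hw2⟩ := Theta.exists_w (n := 1) ℂ (F := FF) (N.map crF) hNF (prime_crF pg dg)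
    (by
      rw [hdet']
      intro h1
      rcases (prime_crF pg dg).dvd_or_dvd h1 with h2 | h2
      · have h3 := (prime_crF pg dg).dvd_of_dvd_pow h2
        exact (prime_crF pg dg).not_isUnit (isUnit_of_dvd_unit h3 (IsUnit.of_mul_eq_one _ hφ))
      · exact hgf (dvd_of_crF_dvd pg dg h2))
    ⟨crF (C (C d0) * C ψ) * crF s, crF c, fun h1 => hc (dvd_of_crF_dvd pg dg h1), by
      rw [hdet']
      have h1 := map_dvd crF hcs
      rw [map_sub, map_mul, map_pow, map_pow] at h1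
      have h2 : crF c ^ 2 * (crF (C (C d0) * C ψ) ^ 2 * crF M.det) -
          (crF (C (C d0) * C ψ) * crF s) ^ 2 =
          crF (C (C d0) * C ψ) ^ 2 * (crF c ^ 2 * crF M.det - crF s ^ 2) := by ring
      rw [h2]
      exact h1.mul_left _⟩
  set A : Matrix (Fin 2) (Fin 2) FF[X] := φ ^ 2 • (N.map crF).adjugate with hA
  have hadj : (N.map crF).adjugate 1 1 = crF (N 0 0) := by
    rw [Matrix.adjugate_fin_two]
    rfl
  have hN00 : ¬ M.det ∣ N 0 0 := by
    intro h1
    apply hb0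
    apply pf.dvd_of_dvd_pow (n := 2)
    have : b ^ 2 = (b ^ 2 - M.adjugate 0 0 * g * N 0 0) + M.adjugate 0 0 * g * N 0 0 := by ring
    rw [this]
    exact dvd_add hb (h1.mul_left _)
  have hφu : IsUnit φ := IsUnit.of_mul_eq_one _ (by rw [mul_comm]; exact hφ)
  have G : GlueData (M.map crF) (N.map crF) A (crF g) (φ * crF b) 1 w := {
    sM := map_symm crF hM
    sM' := hNF
    sA := by
      refine Matrix.ext fun i j => ?_
      rw [Matrix.transpose_apply, hA, Matrix.smul_apply, Matrix.smul_apply]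
      congr 1
      have h1 := congrFun (congrFun (Matrix.adjugate_transpose (N.map crF)) i) j
      rw [hNF.eq, Matrix.transpose_apply] at h1
      exact h1
    hMA := by
      rw [hA, Matrix.mul_smul, Matrix.mul_adjugate, hdet', smul_smul, hdF]
      congr 1
      linear_combination (crF M.det) * (crF (C (C d0) * C ψ) * φ + 1) * hφ
    pf := by rw [hdF]; exact prime_crF pf df
    pg := prime_crF pg dg
    cop := by
      rw [hdF, Irreducible.coprime_iff_not_dvd (prime_crF pf df).irreducible]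
      exact fun h1 => hfg (dvd_of_crF_dvd pf df h1)
    hδ := by
      rw [hdF, adj_crF]
      exact fun h1 => hδ (dvd_of_crF_dvd pf df h1)
    rM := by
      intro i j
      rw [hdF, adj_crF, adj_crF, adj_crF, adj_crF, ← map_mul, ← map_mul, ← map_sub]
      exact map_dvd crF (dvd_minor_adjugate M pf dvd_rfl hδ i j)
    hA := by
      rw [hdF, hA, Matrix.smul_apply, smul_eq_mul, hadj, (hφu.pow 2).dvd_mul_left]
      exact fun h1 => hN00 (dvd_of_crF_dvd pf df h1)
    rA := by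
      intro i j
      have h2 := Matrix.det_fin_two (N.map crF)
      rw [hdet'] at h2
      rw [hdF, hA, Matrix.adjugate_fin_two]
      fin_cases i <;> fin_cases j
      · refine ⟨φ ^ 2, ?_⟩
        change (φ ^ 2 * (N.map crF 0 0)) * (φ ^ 2 * (N.map crF 1 1)) -
          (φ ^ 2 * (-N.map crF 0 1)) * (φ ^ 2 * (-N.map crF 1 0)) = crF M.det * φ ^ 2
        linear_combination (-φ ^ 4) * h2 +
          (crF M.det * φ ^ 2) * (crF (C (C d0) * C ψ) * φ + 1) * hφ
      · simp [mul_comm]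
      · simp
      · simp
    hb := by
      rw [hdF, adj_crF, hA, Matrix.smul_apply, smul_eq_mul, hadj]
      have h1 := map_dvd crF hb
      rw [map_sub, map_mul, map_mul, map_pow] at h1
      have h2 : (φ * crF b) ^ 2 - crF (M.adjugate 0 0) * crF g * (φ ^ 2 * crF (N 0 0)) =
          φ ^ 2 * (crF b ^ 2 - crF (M.adjugate 0 0) * crF g * crF (N 0 0)) := by ring
      rw [h2]
      exact h1.mul_left _
    w1 := hw1
    w2 := hw2 }
  obtain ⟨U, hU1, hU2⟩ := glue_lagrangian (n := 1) ℂ RatK G (by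
    rw [hdF, hdet', algebraMap_FF]
    refine ⟨ffMap (crF (C (C d0) * C ψ) * crF M.det), ?_⟩
    rw [← map_mul ffMap]
    congr 1
    ring)
  obtain ⟨v, hv, hv'⟩ := exists_isotropic_of_binary U (fun x hx y hy => by
    have := hU1 x hx y hy
    rw [psi_apply] at this
    exact this) hU2
  exact ⟨v, hv, hv'⟩

end Vale.Agent.P287.H925V
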