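import Vale.Agent.P287.H925V.RatConic
import Vale.Agent.P287.H270.StmtT

/-!
The odd theta theorem without the hypothesis on the sections of degree `m + 3`.
-/

namespace Vale.Agent.P287.H925V

open MvPolynomial Vale.Agent.P287 Vale.Agent.P287.Theta Vale.Agent.P287.H925
  Vale.Agent.P287.H925.NetResult

variable {M : Matrix (Fin 4) (Fin 4) (MvPolynomial (Fin 3) ℂ)}

/-- **The odd theta theorem.** -/
theorem odd_theta (hM : M.IsSymm)
    (hdeg : ∀ i j, (M i j).IsHomogeneous (1 + wt i + wt j)) (hs : SmoothForm (cubicOf M))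
    (hsm : SmoothP M.det) {g : P3} {m : ℕ} (hm : 2 ≤ m) (hg : Irreducible g)
    (hgr : g.IsHomogeneous (2 * m + 1)) (hgood : H597.GoodRoot M.det g)
    (hev : H597.EvenSections m g M.det) : RationalHypersurface (cubicOf M) :=
  H597.odd_theta_of₃ H270.stmtT rational_of_conic hM hdeg hs hsm hm hg hgr hgood hev

end Vale.Agent.P287.H925V
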