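import Vale.Agent.P287.H925V.Final
import Vale.Agent.P287.Theta.Main

/-!
The block [V] of the odd theta theorem, in the conventions of `Theta.Main`.
-/

namespace Vale.Agent.P287.H925V

open MvPolynomial Vale.Agent.P287 Vale.Agent.P287.Theta Vale.Agent.P287.H925
  Vale.Agent.P287.H925.NetResult

variable {M : Matrix (Fin 4) (Fin 4) (MvPolynomial (Fin 3) ℂ)}

lemma qf_expand {n : ℕ} (A : Matrix (Fin n) (Fin n) R3) (w : Fin n → RatK) :
    dotProduct w ((A.map (aeval tvec : R3 →ₐ[ℂ] RatK)).mulVec w) =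
      ∑ i, ∑ j, aeval tvec (A i j) * (w i * w j) := by
  rw [dotProduct]
  refine Finset.sum_congr rfl fun i _ => ?_
  rw [Matrix.mulVec, dotProduct, Finset.mul_sum]
  refine Finset.sum_congr rfl fun j _ => ?_
  rw [Matrix.map_apply]
  ring

/-- the coordinates `(α, y)` -/
noncomputable def splitE : (Fin 4 → RatK) ≃ₗ[RatK] (RatK × (Fin 3 → RatK)) where
  toFun v := (v 0, fun i => v i.succ)
  map_add' _ _ := rfl
  map_smul' _ _ := rfl
  invFun p := Fin.cons p.1 p.2
  left_inv v := by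
    funext i
    refine Fin.cases ?_ (fun i => ?_) i <;> rfl
  right_inv p := rfl

/-- **Verra block.** `g` irreducible of odd degree `2 m + 1`, `f = det M` smooth and a square in
the function field of `g = 0`, no section of degree `m + 3`: the cubic is rational, or `g q` is
`α² - A(y)` with `A` a symmetric matrix of quadratic forms with determinant `f` up to a
constant. -/
theorem verra_or_rational (hM : M.IsSymm)
    (hdeg : ∀ i j, (M i j).IsHomogeneous (1 + wt i + wt j)) (hs : SmoothForm (cubicOf M))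
    (hsm : SmoothP M.det) {g : P3} {m : ℕ} (hm : 1 ≤ m) (hg : Irreducible g)
    (hgr : g.IsHomogeneous (2 * m + 1)) (hgf : ¬ g ∣ M.det)
    (hsq : ∃ (e : ℕ) (s c : P3), c.IsHomogeneous e ∧ ¬ g ∣ c ∧ g ∣ c ^ 2 * M.det - s ^ 2)
    (hV : ∀ b : P3, b.IsHomogeneous (m + 3) →
      b ^ 2 ∈ Ideal.span {M.adjugate 3 3 * g, M.det} → M.det ∣ b) :
    RationalHypersurface (cubicOf M) ∨
      ∃ (A : Matrix (Fin 3) (Fin 3) P3) (c c1 : ℂ) (b : Fin 3 → P3), c ≠ 0 ∧ c1 ≠ 0 ∧
        A.IsSymm ∧ (∀ i j, (A i j).IsHomogeneous 2) ∧ A.det = C c * M.det ∧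
        M.adjugate 3 3 ≠ 0 ∧ (∀ i, (b i).IsHomogeneous (m + 4)) ∧
        (∀ i j, M.det ∣ b i * b j - C c1 * (M.adjugate 3 3 * g * A.adjugate i j)) ∧
        (∃ i, ¬ M.det ∣ b i) ∧
        ∃ φ : (Fin 4 → RatK) ≃ₗ[RatK] (RatK × (Fin 3 → RatK)), ∀ v,
          (φ v).1 ^ 2 - ∑ i, ∑ j, aeval tvec (A i j) * ((φ v).2 i * (φ v).2 j) =
            aeval tvec g * (dotProduct v ((M.map (aeval tvec : P3 →ₐ[ℂ] RatK)).mulVec v)) := by
  have hdet : (M.submatrix sw sw).det = M.det := Matrix.det_submatrix_equiv_self sw M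
  have hadj : (M.submatrix sw sw).adjugate 0 0 = M.adjugate 3 3 := by
    rw [Matrix.adjugate_submatrix_equiv_self]
    rfl
  have hqsw : ∀ v : Fin 4 → RatK,
      dotProduct v (((M.submatrix sw sw).map (aeval tvec : P3 →ₐ[ℂ] RatK)).mulVec v) =
      dotProduct (v ∘ sw) ((M.map (aeval tvec : P3 →ₐ[ℂ] RatK)).mulVec (v ∘ sw)) := by
    intro v
    simp only [dotProduct, Matrix.mulVec, Matrix.map_apply, Matrix.submatrix_apply]
    rw [← Equiv.sum_comp sw]
    refine Finset.sum_congr rfl fun i _ => ?_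
    rw [← Equiv.sum_comp sw]
    simp
  have hiso : ∀ v : Fin 4 → RatK, v ≠ 0 →
      dotProduct v (((M.submatrix sw sw).map (aeval tvec : P3 →ₐ[ℂ] RatK)).mulVec v) = 0 →
      RationalHypersurface (cubicOf M) := by
    intro v hv hqv
    refine rational_of_isotropic_matrix M hdeg hs (v ∘ sw) ?_ ?_
    · intro h
      apply hv
      funext i
      have := congrFun h (sw i)
      simpa using this
    · rw [← hqsw]
      exact hqv
  by_cases hδ : M.adjugate 3 3 = 0
  · obtain ⟨v, hv, hqv⟩ := isotropic_of_minor (M := M.submatrix sw sw) (by rw [hadj, hδ])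
    exact Or.inl (hiso v hv hqv)
  have hfi : Irreducible M.det := (prime_of_smoothP (det_hom6 hdeg) (by norm_num) hsm).irreducible
  have hfg : ¬ M.det ∣ g := fun h => hgf (hfi.associated_of_dvd hg h).symm.dvd
  rcases odd_core (M := M.submatrix sw sw) (g := g) (m := m) (fibShape_sw hM hdeg)
    (by rw [hdet]; exact hsm) (by rw [hadj]; exact hδ) hgr hm hg (by rw [hdet]; exact hfg)
    (by rw [hdet]; exact hsq) (by rw [hdet, hadj]; exact hV) with
    ⟨v, hv, hqv⟩ | ⟨A, c, c1, b, hc, hc1, hA, hA2, hAd, hb, hbb, hb0, φ, hφ⟩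
  · exact Or.inl (hiso v hv hqv)
  · right
    rw [hdet] at hAd
    refine ⟨A, c, c1, b, hc, hc1, hA, hA2, hAd, hδ, hb, ?_, ?_, ?_⟩
    · intro i j
      have := hbb i j
      rwa [hdet, hadj] at this
    · obtain ⟨i, hi⟩ := hb0
      exact ⟨i, by rwa [hdet] at hi⟩
    · refine ⟨((LinearEquiv.funCongrLeft RatK RatK sw).trans φ).trans splitE, ?_⟩
      intro v
      have h1 := hφ (v ∘ sw)
      rw [hqsw, qf_expand A] at h1
      have h2 : (v ∘ sw) ∘ sw = v := by
        funext i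
        simp
      rw [h2] at h1
      exact h1.symm

end Vale.Agent.P287.H925V
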