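import Vale.Agent.P287.Theta.LinChange
import Vale.Agent.P287.H631.Scale

/-!
Normal form of a plane conic under linear changes of coordinates.
-/

namespace Vale.Agent.P287.H925V

open MvPolynomial Vale.Agent.P287 Vale.Agent.P287.Theta Vale.Agent.P287.H925

/-- a quadratic form over `ℂ` in three variables is a weighted sum of squares -/
lemma exists_diag (S : Matrix (Fin 3) (Fin 3) ℂ) (hS : ∀ i j, S i j = S j i) :
    ∃ (P : Matrix (Fin 3) (Fin 3) ℂ) (w : Fin 3 → ℂ), IsUnit P.det ∧
      ∀ z : Fin 3 → ℂ, ∑ i, ∑ j, S i j * (P.mulVec z i * P.mulVec z j) = ∑ i, w i * z i ^ 2 := by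
  have hB : LinearMap.IsSymm (Matrix.toBilin' S) := by
    rw [LinearMap.isSymm_def]
    intro x y
    rw [RingHom.id_apply]
    rw [Matrix.toBilin'_apply, Matrix.toBilin'_apply, Finset.sum_comm]
    refine Finset.sum_congr rfl fun i _ => Finset.sum_congr rfl fun j _ => ?_
    rw [hS j i]
    ring
  obtain ⟨v, hv⟩ := LinearMap.BilinForm.exists_orthogonal_basis hB
  have h3 : Module.finrank ℂ (Fin 3 → ℂ) = 3 := by simp
  set b := v.reindex (finCongr h3) with hb
  have hbo : ∀ i j, i ≠ j → Matrix.toBilin' S (b i) (b j) = 0 := by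
    intro i j hij
    rw [hb, Module.Basis.reindex_apply, Module.Basis.reindex_apply]
    exact hv (fun h => hij ((finCongr h3).symm.injective h))
  refine ⟨Matrix.of fun i j => b j i, fun i => Matrix.toBilin' S (b i) (b i), ?_, ?_⟩
  · have h1 : (Matrix.of fun i j => b j i) = (Pi.basisFun ℂ (Fin 3)).toMatrix b := by
      refine Matrix.ext fun i j => ?_
      rw [Module.Basis.toMatrix_apply, Pi.basisFun_repr, Matrix.of_apply]
    rw [h1, ← Matrix.isUnit_iff_isUnit_det]
    have := (Pi.basisFun ℂ (Fin 3)).invertibleToMatrix b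
    exact isUnit_of_invertible _
  · intro z
    have h1 : (Matrix.of fun i j => b j i).mulVec z = ∑ j, z j • b j := by
      funext i
      rw [Matrix.mulVec, dotProduct, Finset.sum_apply]
      refine Finset.sum_congr rfl fun j _ => ?_
      rw [Matrix.of_apply, Pi.smul_apply, smul_eq_mul, mul_comm]
    have h2 : ∑ i, ∑ j, S i j * ((Matrix.of fun i j => b j i).mulVec z i *
        (Matrix.of fun i j => b j i).mulVec z j) =
        Matrix.toBilin' S ((Matrix.of fun i j => b j i).mulVec z)
          ((Matrix.of fun i j => b j i).mulVec z) := by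
      rw [Matrix.toBilin'_apply]
      refine Finset.sum_congr rfl fun i _ => Finset.sum_congr rfl fun j _ => ?_
      ring
    rw [h2, h1, map_sum]
    refine Finset.sum_congr rfl fun i _ => ?_
    rw [map_sum, LinearMap.sum_apply, Finset.sum_eq_single i]
    · rw [map_smul, map_smul, LinearMap.smul_apply, smul_eq_mul, smul_eq_mul]
      ring
    · intro j _ hj
      rw [map_smul, map_smul, LinearMap.smul_apply, hbo j i hj, smul_zero, smul_zero]
    · simp

/-- the substitution matrix for two nonzero weights at `1`, `2` -/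
lemma subst_aux (w : Fin 3 → ℂ) (k : Fin 3) (h1 : w (k + 1) ≠ 0) (h2 : w (k + 2) ≠ 0) :
    ∃ A : Matrix (Fin 3) (Fin 3) ℂ, IsUnit A.det ∧
      ((∀ z : Fin 3 → ℂ, ∑ i, w i * A.mulVec z i ^ 2 = z 0 * z 2) ∨
        ∀ z : Fin 3 → ℂ, ∑ i, w i * A.mulVec z i ^ 2 = z 0 * z 2 - z 1 ^ 2) := by
  obtain ⟨a, ha⟩ := IsAlgClosed.exists_pow_nat_eq (w (k + 1)) (n := 2) (by norm_num)
  obtain ⟨b, hb⟩ := IsAlgClosed.exists_pow_nat_eq (-w (k + 2)) (n := 2) (by norm_num)
  have ha0 : a ≠ 0 := by rintro rfl; apply h1; rw [← ha]; ring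
  have hb0 : b ≠ 0 := by rintro rfl; apply h2; rw [← neg_eq_zero, ← hb]; ring
  obtain ⟨s, hs0, hs⟩ : ∃ s : ℂ, s ≠ 0 ∧ (w k = 0 ∨ w k = - s ^ 2) := by
    by_cases h : w k = 0
    · exact ⟨1, one_ne_zero, Or.inl h⟩
    · obtain ⟨s, hs⟩ := IsAlgClosed.exists_pow_nat_eq (-w k) (n := 2) (by norm_num)
      refine ⟨s, ?_, Or.inr (by rw [hs]; ring)⟩
      rintro rfl
      apply h
      rw [← neg_eq_zero, ← hs]
      ring
  have hsum : ∀ F : Fin 3 → ℂ, ∑ i, F i = F k + F (k + 1) + F (k + 2) := by
    intro F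
    rw [Fin.sum_univ_three]
    fin_cases k
    · rfl
    · change F 0 + F 1 + F 2 = F 1 + F 2 + F 0
      ring
    · change F 0 + F 1 + F 2 = F 2 + F 0 + F 1
      ring
  let A : Matrix (Fin 3) (Fin 3) ℂ := Matrix.of fun i =>
    if i = k then ![0, 1 / s, 0] else if i = k + 1 then ![1 / (2 * a), 0, 1 / (2 * a)]
      else ![1 / (2 * b), 0, -1 / (2 * b)]
  have hk1 : k + 1 ≠ k := by fin_cases k <;> decide
  have hk2 : k + 2 ≠ k := by fin_cases k <;> decide
  have hk3 : k + 2 ≠ k + 1 := by fin_cases k <;> decide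
  have hA0 : A k = ![0, 1 / s, 0] := if_pos rfl
  have hA1 : A (k + 1) = ![1 / (2 * a), 0, 1 / (2 * a)] := by
    change (if k + 1 = k then _ else if k + 1 = k + 1 then _ else _) = _
    rw [if_neg hk1, if_pos rfl]
  have hA2 : A (k + 2) = ![1 / (2 * b), 0, -1 / (2 * b)] := by
    change (if k + 2 = k then _ else if k + 2 = k + 1 then _ else _) = _
    rw [if_neg hk2, if_neg hk3]
  have m0 : ∀ z, A.mulVec z k = z 1 / s := by
    intro z
    rw [Matrix.mulVec, dotProduct, hA0, Fin.sum_univ_three]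
    simp
    ring
  have m1 : ∀ z, A.mulVec z (k + 1) = (z 0 + z 2) / (2 * a) := by
    intro z
    rw [Matrix.mulVec, dotProduct, hA1, Fin.sum_univ_three]
    simp
    ring
  have m2 : ∀ z, A.mulVec z (k + 2) = (z 0 - z 2) / (2 * b) := by
    intro z
    rw [Matrix.mulVec, dotProduct, hA2, Fin.sum_univ_three]
    simp
    ring
  refine ⟨A, ?_, ?_⟩
  · rw [isUnit_iff_ne_zero]
    intro h
    obtain ⟨z, hz, hz'⟩ := Matrix.exists_mulVec_eq_zero_iff.2 h
    apply hz
    have e0 := m0 z
    have e1 := m1 z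
    have e2 := m2 z
    rw [hz', Pi.zero_apply] at e0 e1 e2
    have f1 : z 1 = 0 := by
      field_simp at e0
      linear_combination -e0
    have f2 : z 0 + z 2 = 0 := by
      field_simp at e1
      linear_combination -e1
    have f3 : z 0 - z 2 = 0 := by
      field_simp at e2
      linear_combination -e2
    funext i
    fin_cases i
    · change z 0 = 0
      linear_combination (f2 + f3) / 2
    · exact f1
    · change z 2 = 0
      linear_combination (f2 - f3) / 2
  · have hb' : w (k + 2) = - b ^ 2 := by rw [hb]; ring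
    rcases hs with hs | hs
    · left
      intro z
      rw [hsum, m0, m1, m2, hs, ← ha, hb']
      field_simp
      ring
    · right
      intro z
      rw [hsum, m0, m1, m2, hs, ← ha, hb']
      field_simp
      ring

/-- Classification of plane conics. -/
theorem conic_normal {a : P3} (ha : a.IsHomogeneous 2) :
    (∃ l : P3, l.IsHomogeneous 1 ∧ a = l ^ 2) ∨
    ∃ A : Matrix (Fin 3) (Fin 3) ℂ, IsUnit A.det ∧
      (lin A a = X 0 * X 2 ∨ lin A a = X 0 * X 2 - X 1 ^ 2) := by
  obtain ⟨S, hS, haS⟩ := H631.exists_sym_of_homog a ha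
  obtain ⟨P, w, hP, hw⟩ := exists_diag S hS
  have hev : ∀ z : Fin 3 → ℂ, eval z (lin P a) = ∑ i, w i * z i ^ 2 := by
    intro z
    rw [← hw z, eval_lin, haS, qf, map_sum]
    refine Finset.sum_congr rfl fun i _ => ?_
    rw [map_sum]
    refine Finset.sum_congr rfl fun j _ => ?_
    rw [map_mul, map_mul, eval_X, eval_X]
    congr 1
    exact eval_C _
  have hPi : IsUnit (P⁻¹).det := by rw [Matrix.isUnit_nonsing_inv_det_iff]; exact hP
  -- a single weight
  have key1 : ∀ (i : Fin 3), (∀ z : Fin 3 → ℂ, eval z (lin P a) = w i * z i ^ 2) →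
      ∃ l : P3, l.IsHomogeneous 1 ∧ a = l ^ 2 := by
    intro i hi
    obtain ⟨s, hs⟩ := IsAlgClosed.exists_pow_nat_eq (w i) (n := 2) (by norm_num)
    have h1 : lin P a = (C s * X i) ^ 2 := by
      apply MvPolynomial.funext
      intro z
      rw [hi, map_pow, map_mul, eval_C, eval_X, mul_pow, hs]
    refine ⟨lin P⁻¹ (C s * X i), lin_homogeneous _ (isHomogeneous_C_mul_X _ _), ?_⟩
    rw [← map_pow, ← h1, lin_lin, Matrix.mul_nonsing_inv _ hP, lin_one]
  have key2 : ∀ k : Fin 3, w (k + 1) ≠ 0 → w (k + 2) ≠ 0 →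
      ∃ A : Matrix (Fin 3) (Fin 3) ℂ, IsUnit A.det ∧
        (lin A a = X 0 * X 2 ∨ lin A a = X 0 * X 2 - X 1 ^ 2) := by
    intro k h1 h2
    obtain ⟨A, hA, hA'⟩ := subst_aux w k h1 h2
    refine ⟨P * A, by rw [Matrix.det_mul]; exact hP.mul hA, ?_⟩
    rcases hA' with h | h
    · left
      apply MvPolynomial.funext
      intro z
      rw [← lin_lin, eval_lin, hev, h z, map_mul, eval_X, eval_X]
    · right
      apply MvPolynomial.funext
      intro z
      rw [← lin_lin, eval_lin, hev, h z, map_sub, map_mul, map_pow, eval_X, eval_X, eval_X]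
  by_cases w0 : w 0 = 0
  · by_cases w1 : w 1 = 0
    · left
      apply key1 2
      intro z
      rw [hev, Fin.sum_univ_three, w0, w1]
      ring
    · by_cases w2 : w 2 = 0
      · left
        apply key1 1
        intro z
        rw [hev, Fin.sum_univ_three, w0, w2]
        ring
      · right
        exact key2 0 w1 w2
  · by_cases w1 : w 1 = 0
    · by_cases w2 : w 2 = 0
      · left
        apply key1 0
        intro z
        rw [hev, Fin.sum_univ_three, w1, w2]
        ring
      · right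
        exact key2 1 w2 w0
    · right
      exact key2 2 w0 w1

end Vale.Agent.P287.H925V
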