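import Vale.Agent.P287.Theta.Wrap

/-!
On the conic `y = q(x)` the discriminant is a square, as soon as `δ g (y - q(x))` is a square
modulo `f`.
-/

namespace Vale.Agent.P287.H925V

open Polynomial Vale.Agent.P287 Vale.Agent.P287.Theta

/-- The automorphism `y ↦ y + q(x)`. -/
noncomputable def sh (q : ℂ[X]) : ℂ[X][X] ≃ₐ[ℂ[X]] ℂ[X][X] := algEquivAevalXAddC q

lemma sh_apply (q : ℂ[X]) (p : ℂ[X][X]) : sh q p = p.comp (X + C q) := rfl

lemma coeff_sh (q : ℂ[X]) (p : ℂ[X][X]) : (sh q p).coeff 0 = p.eval q := by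
  rw [sh_apply, coeff_zero_eq_eval_zero, eval_comp, eval_add, eval_X, eval_C, zero_add]

lemma sh_sub (q : ℂ[X]) : sh q (X - C q) = X := by
  rw [sh_apply, sub_comp, X_comp, C_comp]
  ring

lemma sh_dvd (q : ℂ[X]) {a b : ℂ[X][X]} : sh q a ∣ sh q b ↔ a ∣ b := map_dvd_iff (sh q)

lemma sh_smooth {f : ℂ[X][X]}
    (hsm : ∀ x y : ℂ, f ∉ (Ideal.span {C (X - C x), X - C (C y)} : Ideal ℂ[X][X]) ^ 2)
    (q : ℂ[X]) (x y : ℂ) :
    sh q f ∉ (Ideal.span {C (X - C x), X - C (C y)} : Ideal ℂ[X][X]) ^ 2 := by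
  intro h
  apply hsm x (y + q.eval x)
  have h1 := Ideal.mem_map_of_mem (sh q).symm h
  rw [AlgEquiv.symm_apply_apply, Ideal.map_pow, Ideal.map_span] at h1
  refine Ideal.pow_right_mono (Ideal.span_le.mpr ?_) 2 h1
  rintro _ ⟨w, (rfl | rfl), rfl⟩
  · have : (sh q).symm (C (X - C x)) = C (X - C x) := by
      rw [AlgEquiv.symm_apply_eq, sh_apply, C_comp]
    rw [this]
    exact Ideal.subset_span (by simp)
  · have h2 : (sh q).symm (X - C (C y)) = (X - C (C (y + q.eval x))) - C (q - C (q.eval x)) := by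
      rw [AlgEquiv.symm_apply_eq, sh_apply, sub_comp, sub_comp, X_comp, C_comp, C_comp]
      simp only [C_add, C_sub]
      ring
    rw [h2]
    refine sub_mem (Ideal.subset_span (by simp)) ?_
    have h3 : (X - C x) ∣ q - C (q.eval x) := by
      rw [dvd_iff_isRoot, IsRoot.def, eval_sub, eval_C, sub_self]
    obtain ⟨r, hr⟩ := h3
    rw [hr, C_mul]
    exact Ideal.mul_mem_right _ _ (Ideal.subset_span (by simp))

theorem sq_on_curve {n : ℕ} {M : Matrix (Fin (n + 1)) (Fin (n + 1)) ℂ[X][X]} (hM : M.IsSymm)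
    (hf : Prime M.det) (hδ : ¬ M.det ∣ M.adjugate 0 0)
    (hsm : ∀ x y : ℂ, M.det ∉ (Ideal.span {C (X - C x), X - C (C y)} : Ideal ℂ[X][X]) ^ 2)
    {g : ℂ[X][X]} (hg : Prime g) (hfg : ¬ M.det ∣ g)
    (hsq : ∃ s c, ¬ g ∣ c ∧ g ∣ c ^ 2 * M.det - s ^ 2) {q : ℂ[X]} (hF : M.det.eval q ≠ 0)
    {t : ℂ[X][X]} (h : M.det ∣ M.adjugate 0 0 * g * (X - C q) - t ^ 2) :
    ∃ Q, M.det.eval q = Q ^ 2 := by
  have hdet : (M.map (sh q)).det = sh q M.det := (AlgEquiv.map_det (sh q) M).symm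
  have hadj : ∀ i j, (M.map (sh q)).adjugate i j = sh q (M.adjugate i j) := by
    intro i j
    have := congrFun (congrFun (AlgHom.map_adjugate ((sh q).toAlgHom) M) i) j
    exact this.symm
  have hpr : ∀ {p : ℂ[X][X]}, Prime p → Prime (sh q p) := fun hp =>
    (MulEquiv.prime_iff (sh q)).mpr hp
  obtain ⟨Q, hQ⟩ := sq_on_line (M := M.map (sh q)) (g := sh q g) (s := 1) (t := sh q t)
    (by
      refine Matrix.IsSymm.ext fun i j => ?_
      rw [Matrix.map_apply, Matrix.map_apply, hM.apply])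
    (by rw [hdet]; exact hpr hf) (by rw [hdet, hadj, sh_dvd]; exact hδ)
    (fun x y _ => by rw [hdet]; exact sh_smooth hsm q x y) (hpr hg)
    (by rw [hdet, sh_dvd]; exact hfg)
    (by
      obtain ⟨s, c, hc, hcs⟩ := hsq
      refine ⟨sh q s, sh q c, by rwa [sh_dvd], ?_⟩
      rw [hdet, ← map_pow, ← map_pow, ← map_mul, ← map_sub, sh_dvd]
      exact hcs)
    (by rw [hdet, coeff_sh]; exact hF)
    (by
      rw [hdet]
      exact fun h1 => (hpr hf).not_isUnit (isUnit_of_dvd_one h1))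
    (by
      rw [hdet, hadj, one_pow, one_mul]
      have h1 := (sh_dvd q).mpr h
      rwa [map_sub, map_mul, map_mul, map_pow, sh_sub] at h1)
  rw [hdet, coeff_sh] at hQ
  exact ⟨Q, hQ⟩

end Vale.Agent.P287.H925V
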