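import Vale.Agent.P287.H925V.Conic
import Vale.Agent.P287.H925V.SqCurve

/-!
A quadric everywhere tangent to the discriminant curve: the sextic is a square on it.
-/

namespace Vale.Agent.P287.H925V

open MvPolynomial Vale.Agent.P287 Vale.Agent.P287.Theta Vale.Agent.P287.H925

/-- A smooth plane sextic with a symmetric determinantal representation, and a plane curve over
which the double plane splits. -/
structure CData (M : Matrix (Fin 4) (Fin 4) P3) (g : P3) (n : ℕ) : Prop where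
  sM : M.IsSymm
  hf : M.det.IsHomogeneous 6
  pf : Prime M.det
  sf : SmoothP M.det
  hδ : (M.adjugate 0 0).IsHomogeneous 3
  δ0 : M.adjugate 0 0 ≠ 0
  hg : g.IsHomogeneous n
  hn : 2 ≤ n
  pg : Prime g
  hgf : ¬ g ∣ M.det
  hsq : ∃ (e : ℕ) (s c : P3), c.IsHomogeneous e ∧ ¬ g ∣ c ∧ g ∣ c ^ 2 * M.det - s ^ 2

variable {M : Matrix (Fin 4) (Fin 4) P3} {g : P3} {n : ℕ}

lemma CData.hfδ (H : CData M g n) : ¬ M.det ∣ M.adjugate 0 0 :=
  not_dvd_of_degree H.hf H.hδ H.δ0 (by norm_num)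

lemma CData.hfg (H : CData M g n) : ¬ M.det ∣ g := by
  intro h
  exact H.hgf (H.pf.irreducible.associated_of_dvd H.pg.irreducible h).symm.dvd

lemma CData.lin (H : CData M g n) {A : Matrix (Fin 3) (Fin 3) ℂ} (hA : IsUnit A.det) :
    CData (M.map (lin A)) (lin A g) n where
  sM := by
    refine Matrix.ext fun i j => ?_
    rw [Matrix.transpose_apply, Matrix.map_apply, Matrix.map_apply, H.sM.apply]
  hf := by rw [det_map_lin]; exact lin_homogeneous A H.hf
  pf := by rw [det_map_lin]; exact (prime_lin hA).2 H.pf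
  sf := by rw [det_map_lin]; exact H.sf.lin hA
  hδ := by rw [adj_map_lin]; exact lin_homogeneous A H.hδ
  δ0 := by
    rw [adj_map_lin]
    intro h
    exact H.δ0 ((map_eq_zero_iff _ (linEquiv A hA).injective).1 h)
  hg := lin_homogeneous A H.hg
  hn := H.hn
  pg := (prime_lin hA).2 H.pg
  hgf := by
    rw [det_map_lin]
    exact fun h => H.hgf ((lin_dvd_lin hA).1 h)
  hsq := by
    obtain ⟨e, s, c, hc, hgc, h⟩ := H.hsq
    refine ⟨e, Theta.lin A s, Theta.lin A c, lin_homogeneous A hc,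
      fun h => hgc ((lin_dvd_lin hA).1 h), ?_⟩
    rw [det_map_lin, ← map_pow, ← map_pow, ← map_mul, ← map_sub]
    exact (lin_dvd_lin hA).2 h

/-- On the curve `w = 0` the sextic is a square. -/
lemma CData.curve (H : CData M g n) {w t : P3} {e : ℕ} (hw : w.IsHomogeneous e) (he : e < 6)
    (hw0 : w ≠ 0) {q : Polynomial ℂ} (hcr : cr w = Polynomial.X - Polynomial.C q)
    (h : M.det ∣ M.adjugate 0 0 * g * w - t ^ 2) : ∃ Q, (cr M.det).eval q = Q ^ 2 := by
  have hn1 : n ≠ 1 := by have := H.hn; omega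
  have hdc : ∀ {q : P3} {e : ℕ}, q.IsHomogeneous e → ¬ M.det ∣ q → ¬ cr M.det ∣ cr q :=
    fun hq hn hd => hn (dvd_of_cr_dvd H.hf H.pf (by norm_num) hq hd)
  have hpc : Prime (cr M.det) := prime_cr H.hf H.pf (by norm_num)
  obtain ⟨Q, hQ⟩ := sq_on_curve (M := M.map cr) (g := cr g) (t := cr t) (q := q)
    (map_symm (cr : P3 →+* Polynomial (Polynomial ℂ)) H.sM)
    (by rw [det_map_cr]; exact hpc)
    (by rw [det_map_cr, adj_map_cr]; exact hdc H.hδ H.hfδ)
    (fun x y => by rw [det_map_cr]; exact smooth_cr H.hf H.sf x y)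
    (prime_cr H.hg H.pg hn1)
    (by rw [det_map_cr]; exact hdc H.hg H.hfg)
    (by
      obtain ⟨e, s, c, hc, hgc, h⟩ := H.hsq
      refine ⟨cr s, cr c, fun h1 => hgc (dvd_of_cr_dvd H.hg H.pg hn1 hc h1), ?_⟩
      rw [det_map_cr, ← map_pow, ← map_pow, ← map_mul, ← map_sub]
      exact map_dvd cr h)
    (by
      rw [det_map_cr]
      intro h1
      have h2 : (Polynomial.X - Polynomial.C q) ∣ cr M.det := Polynomial.dvd_iff_isRoot.mpr h1
      have h3 : cr M.det ∣ cr w := by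
        rw [hcr]
        exact ((Polynomial.prime_X_sub_C q).irreducible.associated_of_dvd hpc.irreducible
          h2).symm.dvd
      exact hdc hw (not_dvd_of_degree H.hf hw hw0 he) h3)
    (by
      rw [det_map_cr, adj_map_cr, ← hcr, ← map_mul, ← map_mul, ← map_pow, ← map_sub]
      exact map_dvd cr h)
  rw [det_map_cr] at hQ
  exact ⟨Q, hQ⟩

lemma smooth_conic : SmoothP (X 0 * X 2 - X 1 ^ 2 : P3) := by
  intro z hz
  have h0 := hz 0
  have h1 := hz 1
  have h2 := hz 2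
  simp at h0 h1 h2
  funext i
  fin_cases i
  · exact h2
  · exact h1
  · exact h0

lemma homog_conic : (X 0 * X 2 - X 1 ^ 2 : P3).IsHomogeneous 2 :=
  ((isHomogeneous_X ℂ (0 : Fin 3)).mul (isHomogeneous_X ℂ 2)).sub
    ((isHomogeneous_X ℂ (1 : Fin 3)).pow 2)

lemma prime_conic : Prime (X 0 * X 2 - X 1 ^ 2 : P3) :=
  prime_of_smoothP homog_conic (by norm_num) smooth_conic

lemma cr_conic : cr (X 0 * X 2 - X 1 ^ 2 : P3) =
    Polynomial.X - Polynomial.C (Polynomial.X ^ 2) := by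
  rw [map_sub, map_mul, map_pow, cr_X0, cr_X1, cr_X2, one_mul, Polynomial.C_pow]

/-- restriction to the conic -/
noncomputable def resC : P3 →ₐ[ℂ] Polynomial ℂ :=
  aeval (![1, Polynomial.X, Polynomial.X ^ 2] : Fin 3 → Polynomial ℂ)

lemma resC_eq (p : P3) : (cr p).eval (Polynomial.X ^ 2) = resC p := by
  have h : (Polynomial.evalRingHom (Polynomial.X ^ 2 : Polynomial ℂ)).comp
      (cr : P3 →+* Polynomial (Polynomial ℂ)) = (resC : P3 →+* Polynomial ℂ) := by
    apply MvPolynomial.ringHom_ext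
    · intro a
      rw [RingHom.comp_apply]
      have h1 : (cr : P3 →+* Polynomial (Polynomial ℂ)) (C a) =
          Polynomial.C (Polynomial.C a) := cr.commutes a
      have h2 : (resC : P3 →+* Polynomial ℂ) (C a) = Polynomial.C a := resC.commutes a
      rw [h1, h2]
      simp
    · intro i
      rw [RingHom.comp_apply]
      fin_cases i
      · change Polynomial.eval (Polynomial.X ^ 2) (cr (X 0)) = resC (X 0)
        rw [cr_X0]; simp [resC]
      · change Polynomial.eval (Polynomial.X ^ 2) (cr (X 1)) = resC (X 1)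
        rw [cr_X1]; simp [resC]
      · change Polynomial.eval (Polynomial.X ^ 2) (cr (X 2)) = resC (X 2)
        rw [cr_X2]; simp [resC]
  exact RingHom.congr_fun h p

/-- the cubic with the same restriction to the conic -/
lemma exists_cubic_of_conic {f : P3} (hf : f.IsHomogeneous 6) {Q : Polynomial ℂ}
    (hQ : (cr f).eval (Polynomial.X ^ 2) = Q ^ 2) :
    ∃ q : P3, q.IsHomogeneous 3 ∧ (X 0 * X 2 - X 1 ^ 2) ∣ f - q ^ 2 := by
  rw [resC_eq] at hQ
  have h1 : (resC f).natDegree ≤ 6 * 2 := by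
    refine MvPolynomial.aeval_natDegree_le f hf.totalDegree_le _ fun i => ?_
    fin_cases i
    · simp
    · simp
    · simp
  have h2 : Q.natDegree < 7 := by
    rw [hQ, Polynomial.natDegree_pow] at h1
    omega
  set q : P3 := ∑ i ∈ Finset.range 7, C (Q.coeff i) * (X 1 ^ (i % 2) * X 2 ^ (i / 2)) *
    X 0 ^ (3 - i / 2 - i % 2) with hq
  have hqh : q.IsHomogeneous 3 := by
    refine IsHomogeneous.sum _ _ _ fun i hi => ?_
    have h3 := ((isHomogeneous_C (Fin 3) (Q.coeff i)).mul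
      (((isHomogeneous_X ℂ (1 : Fin 3)).pow (i % 2)).mul
        ((isHomogeneous_X ℂ (2 : Fin 3)).pow (i / 2)))).mul
      ((isHomogeneous_X ℂ (0 : Fin 3)).pow (3 - i / 2 - i % 2))
    have h4 : 0 + (1 * (i % 2) + 1 * (i / 2)) + 1 * (3 - i / 2 - i % 2) = 3 := by
      rw [Finset.mem_range] at hi
      omega
    rwa [h4] at h3
  refine ⟨q, hqh, ?_⟩
  have hr : resC q = Q := by
    rw [hq, map_sum]
    conv_rhs => rw [Polynomial.as_sum_range' Q 7 h2]
    refine Finset.sum_congr rfl fun i _ => ?_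
    have hC : resC (C (Q.coeff i)) = Polynomial.C (Q.coeff i) := resC.commutes _
    have hX0 : resC (X 0) = 1 := by simp [resC]
    have hX1 : resC (X 1) = Polynomial.X := by simp [resC]
    have hX2 : resC (X 2) = Polynomial.X ^ 2 := by simp [resC]
    rw [map_mul, map_mul, map_mul, map_pow, map_pow, map_pow, hC, hX0, hX1, hX2, one_pow, mul_one,
      ← pow_mul, ← pow_add, Polynomial.C_mul_X_pow_eq_monomial, Nat.mod_add_div]
  refine dvd_of_cr_dvd (e := 6) homog_conic prime_conic (by norm_num) (hf.sub (hqh.pow 2)) ?_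
  rw [cr_conic, Polynomial.dvd_iff_isRoot, Polynomial.IsRoot.def, resC_eq, map_sub, map_pow, hr, hQ,
    sub_self]

lemma CData.conic (H : CData M g n) {t : P3}
    (h : M.det ∣ M.adjugate 0 0 * g * (X 0 * X 2 - X 1 ^ 2) - t ^ 2) :
    ∃ q : P3, q.IsHomogeneous 3 ∧ (X 0 * X 2 - X 1 ^ 2) ∣ M.det - q ^ 2 := by
  obtain ⟨Q, hQ⟩ := H.curve homog_conic (by norm_num) prime_conic.ne_zero cr_conic h
  exact exists_cubic_of_conic H.hf hQ

lemma dvd_sub_aeval {x : P3} {y : Fin 3 → P3} (hy : ∀ i, x ∣ X i - y i) (p : P3) :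
    x ∣ p - aeval y p := by
  induction p using MvPolynomial.induction_on with
  | C a => simp
  | add p q hp hq =>
    rw [map_add, add_sub_add_comm]
    exact dvd_add hp hq
  | mul_X p i hp =>
    rw [map_mul, aeval_X]
    have : p * X i - aeval y p * y i = (p - aeval y p) * X i + aeval y p * (X i - y i) := by
      ring
    rw [this]
    exact dvd_add (hp.mul_right _) ((hy i).mul_left _)

/-- glueing two cubics -/
lemma glue_cubics {f q1 q2 : P3} (h1 : q1.IsHomogeneous 3) (h2 : q2.IsHomogeneous 3)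
    (hd1 : X 2 ∣ f - q1 ^ 2) (hd2 : X 0 ∣ f - q2 ^ 2) :
    ∃ q : P3, q.IsHomogeneous 3 ∧ X 0 * X 2 ∣ f - q ^ 2 := by
  -- the common value at the point (0, 1, 0)
  have hev : ∀ {x a : P3}, eval ![0, 1, 0] x = 0 → x ∣ a → eval ![0, 1, 0] a = (0 : ℂ) := by
    rintro x _ hx ⟨b, rfl⟩
    rw [map_mul, hx, zero_mul]
  have e1 := hev (x := X 2) (by simp) hd1
  have e2 := hev (x := X 0) (by simp) hd2
  rw [map_sub, map_pow, sub_eq_zero] at e1 e2
  rw [e1, sq_eq_sq_iff_eq_or_eq_neg] at e2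
  -- adjust the sign
  obtain ⟨q2', h2', hd2', he⟩ : ∃ q2' : P3, q2'.IsHomogeneous 3 ∧ X 0 ∣ f - q2' ^ 2 ∧
      eval ![0, 1, 0] q1 = eval ![0, 1, 0] q2' := by
    rcases e2 with e2 | e2
    · exact ⟨q2, h2, hd2, e2⟩
    · refine ⟨-q2, h2.neg, ?_, by rw [map_neg, e2]⟩
      rwa [neg_sq]
  -- the value on the point as a form
  have hpt : ∀ {q : P3}, q.IsHomogeneous 3 →
      aeval (![0, X 1, 0] : Fin 3 → P3) q = X 1 ^ 3 * C (eval ![0, 1, 0] q) := by
    intro q hq
    apply MvPolynomial.funext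
    intro z
    have h3 := aeval_scale (S := ℂ) hq (z 1) ![0, 1, 0]
    rw [eval_eq_aeval, ← AlgHom.comp_apply, comp_aeval]
    rw [map_mul, map_pow, eval_X, eval_C, eval_eq_aeval, ← h3]
    congr 2
    funext i
    fin_cases i <;> simp
  have hsw : aeval (![0, X 1, 0] : Fin 3 → P3) q1 = aeval (![0, X 1, 0] : Fin 3 → P3) q2' := by
    rw [hpt h1, hpt h2', he]
  have hhom : ∀ {q : P3}, q.IsHomogeneous 3 → ∀ {y : Fin 3 → P3},
      (∀ i, (y i).IsHomogeneous 1) → (aeval y q).IsHomogeneous 3 := by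
    intro q hq y hy
    have h3 := hq.aeval y (n := 1) hy
    rwa [one_mul] at h3
  have hX := fun i : Fin 3 => isHomogeneous_X ℂ i
  have h00 : (0 : P3).IsHomogeneous 1 := isHomogeneous_zero _ _ _
  refine ⟨aeval (![X 0, X 1, 0] : Fin 3 → P3) q1 + aeval (![0, X 1, X 2] : Fin 3 → P3) q2' -
    aeval (![0, X 1, 0] : Fin 3 → P3) q1, ((hhom h1 ?_).add (hhom h2' ?_)).sub (hhom h1 ?_), ?_⟩
  · intro i
    fin_cases i
    · exact hX 0
    · exact hX 1
    · exact h00
  · intro i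
    fin_cases i
    · exact h00
    · exact hX 1
    · exact hX 2
  · intro i
    fin_cases i
    · exact h00
    · exact hX 1
    · exact h00
  set d := aeval (![X 0, X 1, 0] : Fin 3 → P3) q1 + aeval (![0, X 1, X 2] : Fin 3 → P3) q2' -
    aeval (![0, X 1, 0] : Fin 3 → P3) q1 with hd
  have hc2 : (X 2 : P3) ∣ d - q1 := by
    have a1 : (X 2 : P3) ∣ q1 - aeval (![X 0, X 1, 0] : Fin 3 → P3) q1 :=
      dvd_sub_aeval (by intro i; fin_cases i <;> simp) q1
    have a2 : (X 2 : P3) ∣ aeval (![0, X 1, X 2] : Fin 3 → P3) q2' -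
        aeval (![0, X 1, 0] : Fin 3 → P3) q2' := by
      have b1 := dvd_sub_aeval (x := X 2) (y := ![X 0, X 1, 0])
        (by intro i; fin_cases i <;> simp) (aeval (![0, X 1, X 2] : Fin 3 → P3) q2')
      have b2 : aeval (![X 0, X 1, 0] : Fin 3 → P3) (aeval (![0, X 1, X 2] : Fin 3 → P3) q2') =
          aeval (![0, X 1, 0] : Fin 3 → P3) q2' := by
        rw [← AlgHom.comp_apply, comp_aeval]
        congr 2
        funext i
        fin_cases i <;> simp
      rwa [b2] at b1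
    have e : d - q1 = - (q1 - aeval (![X 0, X 1, 0] : Fin 3 → P3) q1) +
        (aeval (![0, X 1, X 2] : Fin 3 → P3) q2' - aeval (![0, X 1, 0] : Fin 3 → P3) q2') := by
      rw [hd, hsw]
      ring
    rw [e]
    exact dvd_add (dvd_neg.mpr a1) a2
  have hc0 : (X 0 : P3) ∣ d - q2' := by
    have a1 : (X 0 : P3) ∣ q2' - aeval (![0, X 1, X 2] : Fin 3 → P3) q2' :=
      dvd_sub_aeval (by intro i; fin_cases i <;> simp) q2'
    have a2 : (X 0 : P3) ∣ aeval (![X 0, X 1, 0] : Fin 3 → P3) q1 -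
        aeval (![0, X 1, 0] : Fin 3 → P3) q1 := by
      have b1 := dvd_sub_aeval (x := X 0) (y := ![0, X 1, X 2])
        (by intro i; fin_cases i <;> simp) (aeval (![X 0, X 1, 0] : Fin 3 → P3) q1)
      have b2 : aeval (![0, X 1, X 2] : Fin 3 → P3) (aeval (![X 0, X 1, 0] : Fin 3 → P3) q1) =
          aeval (![0, X 1, 0] : Fin 3 → P3) q1 := by
        rw [← AlgHom.comp_apply, comp_aeval]
        congr 2
        funext i
        fin_cases i <;> simp
      rwa [b2] at b1
    have e : d - q2' = - (q2' - aeval (![0, X 1, X 2] : Fin 3 → P3) q2') +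
        (aeval (![X 0, X 1, 0] : Fin 3 → P3) q1 - aeval (![0, X 1, 0] : Fin 3 → P3) q1) := by
      rw [hd]
      ring
    rw [e]
    exact dvd_add (dvd_neg.mpr a1) a2
  have f2 : (X 2 : P3) ∣ f - d ^ 2 := by
    have e : f - d ^ 2 = (f - q1 ^ 2) - (d - q1) * (d + q1) := by ring
    rw [e]
    exact dvd_sub hd1 (hc2.mul_right _)
  have f0 : (X 0 : P3) ∣ f - d ^ 2 := by
    have e : f - d ^ 2 = (f - q2' ^ 2) - (d - q2') * (d + q2') := by ring
    rw [e]
    exact dvd_sub hd2' (hc0.mul_right _)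
  obtain ⟨u, hu⟩ := f2
  rw [hu] at f0 ⊢
  have hp0 : Prime (X 0 : P3) := X_prime
  rcases hp0.dvd_or_dvd f0 with h | ⟨v, hv⟩
  · exfalso
    obtain ⟨v, hv⟩ := h
    have h3 := congrArg (eval ![0, 0, 1]) hv
    simp at h3
  · rw [hv]
    exact ⟨v, by ring⟩

lemma CData.line (H : CData M g n) {t : P3}
    (h : M.det ∣ M.adjugate 0 0 * g * (X 0 * X 2) - t ^ 2) :
    ∃ q : P3, q.IsHomogeneous 3 ∧ X 2 ∣ M.det - q ^ 2 := by
  obtain ⟨Q, hQ⟩ := H.curve (w := X 0 * X 2) (q := 0) (e := 1 + 1)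
    ((isHomogeneous_X ℂ (0 : Fin 3)).mul (isHomogeneous_X ℂ 2)) (by norm_num)
    (mul_ne_zero (X_ne_zero _) (X_ne_zero _))
    (by rw [map_mul, cr_X0, cr_X2, one_mul, map_zero, sub_zero]) h
  rw [← Polynomial.coeff_zero_eq_eval_zero] at hQ
  exact exists_cubic_of_sq H.hf hQ

/-- the transposition of the first and last coordinates -/
lemma exists_swap : ∃ A : Matrix (Fin 3) (Fin 3) ℂ, IsUnit A.det ∧ A * A = 1 ∧
    lin A (X 0) = X 2 ∧ lin A (X 2) = X 0 := by
  refine ⟨!![0, 0, 1; 0, 1, 0; 1, 0, 0], ?_, ?_, ?_, ?_⟩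
  · rw [isUnit_iff_ne_zero, Matrix.det_fin_three]
    simp
  · refine Matrix.ext fun i j => ?_
    fin_cases i <;> fin_cases j <;> simp [Matrix.mul_apply, Fin.sum_univ_three]
  · rw [lin_X, Fin.sum_univ_three]
    simp
  · rw [lin_X, Fin.sum_univ_three]
    simp

lemma CData.pair (H : CData M g n) {t : P3}
    (h : M.det ∣ M.adjugate 0 0 * g * (X 0 * X 2) - t ^ 2) :
    ∃ q : P3, q.IsHomogeneous 3 ∧ X 0 * X 2 ∣ M.det - q ^ 2 := by
  obtain ⟨q1, h1, hd1⟩ := H.line h
  obtain ⟨A, hA, hAA, hA0, hA2⟩ := exists_swap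
  obtain ⟨q2, h2, hd2⟩ := (H.lin hA).line (t := Theta.lin A t) (by
    rw [det_map_lin, adj_map_lin]
    have h3 := (lin_dvd_lin hA).2 h
    rw [map_sub, map_mul, map_mul, map_mul, map_pow, hA0, hA2] at h3
    rwa [mul_comm (X 0 : P3)])
  refine glue_cubics (f := M.det) h1 (lin_homogeneous A h2) hd1 ?_
  have h3 := (lin_dvd_lin hA).2 hd2
  rwa [det_map_lin, map_sub, map_pow, hA2, lin_lin, hAA, lin_one] at h3

/-- The glueing theorem for a binary form, homogeneous version. -/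
theorem CData.isotropic_of (H : CData M g n) {N : Matrix (Fin 2) (Fin 2) P3} (hN : N.IsSymm)
    {c : ℂ} (hc : c ≠ 0) (hdet : N.det = C c * M.det) {s t : P3} {es et : ℕ}
    (hes : s.IsHomogeneous es) (het : t.IsHomogeneous et) (hs : ¬ M.det ∣ s) (ht : ¬ M.det ∣ t)
    (hst : M.det ∣ s ^ 2 * (g * N 0 0) - t ^ 2 * M.adjugate 0 0) :
    ∃ v : Fin 4 → RatK, v ≠ 0 ∧
      dotProduct v ((M.map (aeval tvec : P3 →ₐ[ℂ] RatK)).mulVec v) = 0 := by
  have hmap : (M.map cr).map crMap = M.map (aeval tvec : P3 →ₐ[ℂ] RatK) := by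
    refine Matrix.ext fun i j => ?_
    rw [Matrix.map_apply, Matrix.map_apply, Matrix.map_apply, crMap_cr]
  rw [← hmap]
  have hn1 : n ≠ 1 := by have := H.hn; omega
  have hd0 : (M.map cr).det = cr M.det := det_map_cr M
  have hfh : ∀ {q : P3} {e : ℕ}, q.IsHomogeneous e → ¬ M.det ∣ q → ¬ cr M.det ∣ cr q :=
    fun hq hn hd => hn (dvd_of_cr_dvd H.hf H.pf (by norm_num) hq hd)
  refine isotropic_chart (M := M.map cr) (N := N.map cr) (g := cr g) (c := c)
    (map_symm (cr : P3 →+* Polynomial (Polynomial ℂ)) H.sM)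
    (map_symm (cr : P3 →+* Polynomial (Polynomial ℂ)) hN) hc ?_ ?_ ?_
    (prime_cr H.hg H.pg hn1) (natDegree_cr_ne_zero H.hg H.pg H.hn) ?_ ?_ ?_ ?_
    (s := cr s) (t := cr t) ?_ ?_ ?_
  · have h1 : (N.map cr).det = cr N.det := (AlgHom.map_det cr N).symm
    rw [h1, hd0, hdet, map_mul]
    congr 1
    exact cr.commutes c
  · rw [hd0]; exact prime_cr H.hf H.pf (by norm_num)
  · rw [hd0]; exact natDegree_cr_ne_zero H.hf H.pf (by norm_num)
  · rw [hd0]; exact hfh H.hg H.hfg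
  · rw [hd0, adj_map_cr]; exact hfh H.hδ H.hfδ
  · rw [hd0]; exact fun x y _ => smooth_cr H.hf H.sf x y
  · obtain ⟨e, s, c, hc, hgc, h⟩ := H.hsq
    refine ⟨cr s, cr c, fun h1 => hgc (dvd_of_cr_dvd H.hg H.pg hn1 hc h1), ?_⟩
    rw [hd0, ← map_pow, ← map_pow, ← map_mul, ← map_sub]
    exact map_dvd cr h
  · rw [hd0]; exact hfh hes hs
  · rw [hd0]; exact hfh het ht
  · rw [hd0, adj_map_cr]
    have h1 := map_dvd cr hst
    simp only [map_sub, map_mul, map_pow] at h1
    exact h1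

/-- The sextic is a square on every conic `a = 0` such that `δ g a` is a square modulo the
sextic, unless `a` is a square. -/
lemma CData.exists_cubic (H : CData M g n) {a t : P3} (ha : a.IsHomogeneous 2)
    (h : M.det ∣ M.adjugate 0 0 * g * a - t ^ 2) :
    (∃ l : P3, l.IsHomogeneous 1 ∧ a = l ^ 2) ∨
      ∃ q : P3, q.IsHomogeneous 3 ∧ a ∣ M.det - q ^ 2 := by
  rcases conic_normal ha with h1 | ⟨A, hA, hAa⟩
  · exact Or.inl h1
  · right
    have hA' : IsUnit (A⁻¹).det := by rw [Matrix.isUnit_nonsing_inv_det_iff]; exact hA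
    have h3 := (lin_dvd_lin hA).2 h
    rw [map_sub, map_mul, map_mul, map_pow, ← det_map_lin, ← adj_map_lin] at h3
    have key : ∃ q : P3, q.IsHomogeneous 3 ∧ Theta.lin A a ∣ (M.map (Theta.lin A)).det - q ^ 2 := by
      rcases hAa with h4 | h4
      · rw [h4] at h3 ⊢
        exact (H.lin hA).pair h3
      · rw [h4] at h3 ⊢
        exact (H.lin hA).conic h3
    obtain ⟨q, hq, hq'⟩ := key
    refine ⟨Theta.lin A⁻¹ q, lin_homogeneous _ hq, ?_⟩
    have h5 := (lin_dvd_lin hA').2 hq'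
    rwa [lin_lin, Matrix.mul_nonsing_inv _ hA, lin_one, map_sub, map_pow, det_map_lin, lin_lin,
      Matrix.mul_nonsing_inv _ hA, lin_one] at h5

/-- **A section of degree `m + 3`**: the quadratic form of the symmetric determinantal
representation is isotropic. -/
theorem CData.isotropic (H : CData M g n) {a b : P3} {e : ℕ} (ha : a.IsHomogeneous 2)
    (hb : b.IsHomogeneous e) (hfb : ¬ M.det ∣ b) (h : M.det ∣ b ^ 2 - M.adjugate 0 0 * g * a) :
    ∃ v : Fin 4 → RatK, v ≠ 0 ∧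
      dotProduct v ((M.map (aeval tvec : P3 →ₐ[ℂ] RatK)).mulVec v) = 0 := by
  have h' : M.det ∣ M.adjugate 0 0 * g * a - b ^ 2 := by
    rw [← dvd_neg, neg_sub]
    exact h
  have ha0 : a ≠ 0 := by
    rintro rfl
    rw [mul_zero, sub_zero] at h
    exact hfb (H.pf.dvd_of_dvd_pow h)
  rcases H.exists_cubic ha h' with ⟨l, hl, hal⟩ | ⟨q, hq, r, hr⟩
  · have hl0 : l ≠ 0 := by
      rintro rfl
      apply ha0
      rw [hal]
      ring
    refine H.isotropic_of (N := !![1, 0; 0, M.det]) (c := 1) ?_ one_ne_zero ?_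
      (s := M.adjugate 0 0 * l) (t := b) (H.hδ.mul hl) hb ?_ hfb ?_
    · refine Matrix.IsSymm.ext fun i j => ?_
      fin_cases i <;> fin_cases j <;> rfl
    · rw [Matrix.det_fin_two_of, C_1]
      ring
    · intro h1
      rcases H.pf.dvd_or_dvd h1 with h2 | h2
      · exact H.hfδ h2
      · exact not_dvd_of_degree H.hf hl hl0 (by norm_num) h2
    · have e1 : (M.adjugate 0 0 * l) ^ 2 * (g * (!![1, 0; 0, M.det] : Matrix (Fin 2) (Fin 2) P3) 0 0)
          - b ^ 2 * M.adjugate 0 0 = M.adjugate 0 0 * (M.adjugate 0 0 * g * a - b ^ 2) := by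
        rw [hal]
        simp only [Matrix.of_apply, Matrix.cons_val', Matrix.cons_val_zero]
        ring
      rw [e1]
      exact h'.mul_left _
  · refine H.isotropic_of (N := !![a, q; q, -r]) (c := -1) ?_ (by norm_num) ?_
      (s := M.adjugate 0 0) (t := b) H.hδ hb H.hfδ hfb ?_
    · refine Matrix.IsSymm.ext fun i j => ?_
      fin_cases i <;> fin_cases j <;> rfl
    · rw [Matrix.det_fin_two_of, C_neg, C_1]
      linear_combination hr
    · have e1 : (M.adjugate 0 0) ^ 2 * (g * (!![a, q; q, -r] : Matrix (Fin 2) (Fin 2) P3) 0 0)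
          - b ^ 2 * M.adjugate 0 0 = M.adjugate 0 0 * (M.adjugate 0 0 * g * a - b ^ 2) := by
        simp only [Matrix.of_apply, Matrix.cons_val', Matrix.cons_val_zero]
        ring
      rw [e1]
      exact h'.mul_left _

end Vale.Agent.P287.H925V
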