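import Vale.Agent.P287.H925V.RankTwo

/-!
A binary form with discriminant `f κ ψ(x)²`.
-/

namespace Vale.Agent.P287.H925V

open Polynomial Vale.Agent.P287 Vale.Agent.P287.Theta

variable {f h : ℂ[X][X]} {m : ℕ} {z : Fin 6 → ℂ} {c6 : ℂ}
  {β : Fin 3 → ℂ[X][X]} {a : Matrix (Fin 3) (Fin 3) ℂ[X][X]}

lemma exists_cross {s : Fin 3 → ℂ} (hs : s ≠ 0) : ∃ w w' : Fin 3 → ℂ,
    s 0 = w 1 * w' 2 - w 2 * w' 1 ∧ s 1 = w 2 * w' 0 - w 0 * w' 2 ∧
    s 2 = w 0 * w' 1 - w 1 * w' 0 := by
  by_cases h0 : s 0 = 0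
  · by_cases h1 : s 1 = 0
    · have h2 : s 2 ≠ 0 := by
        intro h2
        apply hs
        funext i
        fin_cases i
        · exact h0
        · exact h1
        · exact h2
      refine ⟨![1, 0, - s 0 / s 2], ![0, s 2, - s 1], ?_, ?_, ?_⟩
      · simp [h0]
      · simp
      · simp
    · refine ⟨![0, - s 2 / s 1, 1], ![s 1, - s 0, 0], ?_, ?_, ?_⟩
      · simp
      · simp
      · simp
        field_simp
  · refine ⟨![- s 1 / s 0, 1, 0], ![- s 2, 0, s 0], ?_, ?_, ?_⟩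
    · simp
    · simp
      field_simp
    · simp

/-- The Gram determinant of two vectors. -/
lemma gram_det (ha : a.IsSymm) {s w w' : Fin 3 → ℂ} (h0 : s 0 = w 1 * w' 2 - w 2 * w' 1)
    (h1 : s 1 = w 2 * w' 0 - w 0 * w' 2) (h2 : s 2 = w 0 * w' 1 - w 1 * w' 0) :
    gr a w w * gr a w' w' - gr a w w' * gr a w w' =
      ∑ i, ∑ j, C (C (s i)) * C (C (s j)) * a.adjugate i j := by
  obtain ⟨e00, e01, e02, e11, e12, e22, e10, e20, e21⟩ := adj_entries ha
  have f1 : a 1 0 = a 0 1 := ha.apply 0 1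
  have f2 : a 2 0 = a 0 2 := ha.apply 0 2
  have f3 : a 2 1 = a 1 2 := ha.apply 1 2
  simp only [gr, Fin.sum_univ_three, e10, e20, e21, e00, e01, e02, e11, e12, e22, h0, h1, h2,
    f1, f2, f3, map_sub, map_mul]
  ring

/-- polynomials of degree one -/
lemma exists_of_TD_one {u : ℂ[X][X]} (hu : TD 1 u) : ∃ (α : ℂ[X]) (γ : ℂ),
    u = C α + C (C γ) * X := by
  rw [TD_iff] at hu
  have h1 : u.natDegree ≤ 1 := by
    by_contra h1
    have h2 : u.coeff u.natDegree ≠ 0 := by
      rw [coeff_natDegree, Ne, leadingCoeff_eq_zero]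
      rintro rfl
      simp at h1
    have := hu _ h2
    omega
  refine ⟨u.coeff 0, (u.coeff 1).coeff 0, ?_⟩
  have h2 : u.coeff 1 = C ((u.coeff 1).coeff 0) := by
    apply eq_C_of_natDegree_eq_zero
    by_cases h3 : u.coeff 1 = 0
    · rw [h3, natDegree_zero]
    · have := hu 1 h3
      omega
  rw [← h2, add_comm]
  exact eq_X_add_C_of_natDegree_le_one h1

/-- A constant combination which only depends on `x`. -/
theorem exists_combo {κ : ℂ} {u : Fin 3 → ℂ[X][X]} (hf : f ≠ 0) (hκ : κ ≠ 0) (hu : ∀ i, TD 1 (u i))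
    (hN : ∀ i j, a.adjugate i j = f * (C (C κ) * u i * u j)) (h0 : a.det = 0)
    (hm : a.adjugate ≠ 0)
    (hk : ∀ c : Fin 3 → ℂ, (∀ i, ∑ j, a i j * C (C (c j)) = 0) → c = 0) :
    ∃ (s : Fin 3 → ℂ) (ψ : ℂ[X]), s ≠ 0 ∧ ψ ≠ 0 ∧ ∑ i, C (C (s i)) * u i = C ψ := by
  obtain ⟨j, hj⟩ : ∃ j, u j ≠ 0 := by
    by_contra hcon
    push Not at hcon
    apply hm
    ext1 i j
    rw [hN, hcon i]
    simp
  choose α γ hαγ using fun i => exists_of_TD_one (hu i)
  -- the kernel
  have hker : ∀ i, ∑ l, a i l * u l = 0 := by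
    intro i
    have h1 := congrFun (congrFun (Matrix.mul_adjugate a) i) j
    rw [h0, zero_smul, Matrix.mul_apply] at h1
    have h2 : f * C (C κ) * u j * ∑ l, a i l * u l = 0 := by
      refine Eq.trans ?_ h1
      rw [Finset.mul_sum]
      refine Finset.sum_congr rfl fun l _ => ?_
      rw [hN]
      ring
    have h3 : (C (C κ) : ℂ[X][X]) ≠ 0 := by
      rw [Ne, C_eq_zero, C_eq_zero]
      exact hκ
    exact (mul_eq_zero.mp h2).resolve_left (mul_ne_zero (mul_ne_zero hf h3) hj)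
  by_cases hγj : γ j = 0
  · refine ⟨Pi.single j 1, α j, ?_, ?_, ?_⟩
    · intro h1
      have := congrFun h1 j
      simp at this
    · rintro h1
      apply hj
      rw [hαγ, hγj, h1]
      simp
    · rw [Finset.sum_eq_single j]
      · rw [Pi.single_eq_same, C_1, C_1, one_mul, hαγ, hγj, C_0, C_0, zero_mul, add_zero]
      · intro i _ hij
        rw [Pi.single_eq_of_ne hij, C_0, C_0, zero_mul]
      · intro h1
        exact absurd (Finset.mem_univ j) h1
  · by_cases hall : ∀ i, C (γ j) * α i - C (γ i) * α j = 0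
    · exfalso
      have hprop : ∀ i, C (C (γ j)) * u i = C (C (γ i)) * u j := by
        intro i
        rw [hαγ i, hαγ j]
        have h1 := congrArg (C : ℂ[X] → ℂ[X][X]) (hall i)
        rw [C_sub, C_mul, C_mul, C_0] at h1
        linear_combination h1
      have h1 := hk γ (by
        intro i
        refine mul_left_cancel₀ hj ?_
        have h2 : u j * ∑ l, a i l * C (C (γ l)) = C (C (γ j)) * ∑ l, a i l * u l := by
          rw [Finset.mul_sum, Finset.mul_sum]
          refine Finset.sum_congr rfl fun l _ => ?_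
          linear_combination (-(a i l)) * hprop l
        rw [h2, hker, mul_zero, mul_zero])
      exact hγj (congrFun h1 j)
    · push Not at hall
      obtain ⟨i, hi⟩ := hall
      refine ⟨Pi.single i (γ j) - Pi.single j (γ i), C (γ j) * α i - C (γ i) * α j, ?_, hi, ?_⟩
      · intro h1
        have hij : i ≠ j := by
          rintro rfl
          exact hi (by ring)
        have := congrFun h1 i
        rw [Pi.sub_apply, Pi.single_eq_same, Pi.single_eq_of_ne hij, sub_zero] at this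
        exact hγj this
      · have e1 : ∀ (l : Fin 3) (t : ℂ), ∑ k, C (C ((Pi.single l t : Fin 3 → ℂ) k)) * u k =
            C (C t) * u l := by
          intro l t
          rw [Finset.sum_eq_single l]
          · rw [Pi.single_eq_same]
          · intro k _ hkl
            rw [Pi.single_eq_of_ne hkl, C_0, C_0, zero_mul]
          · intro h1
            exact absurd (Finset.mem_univ l) h1
        have e2 : ∑ k, C (C ((Pi.single i (γ j) - Pi.single j (γ i) : Fin 3 → ℂ) k)) * u k =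
            C (C (γ j)) * u i - C (C (γ i)) * u j := by
          rw [← e1 i, ← e1 j, ← Finset.sum_sub_distrib]
          refine Finset.sum_congr rfl fun k _ => ?_
          rw [Pi.sub_apply, C_sub, C_sub, sub_mul]
        rw [e2, hαγ i, hαγ j, C_sub, C_mul, C_mul]
        ring

lemma symm_two {R : Type*} (p q r : R) : (!![p, q; q, r] : Matrix (Fin 2) (Fin 2) R).IsSymm := by
  refine Matrix.IsSymm.ext fun i j => ?_
  fin_cases i <;> fin_cases j <;> rfl

/-- The binary form. -/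
theorem exists_binary (hf : Prime f) (T : Three f h m β a) {κ : ℂ} {u : Fin 3 → ℂ[X][X]}
    (hκ : κ ≠ 0) (hu : ∀ i, TD 1 (u i))
    (hN : ∀ i j, a.adjugate i j = f * (C (C κ) * u i * u j)) (h0 : a.det = 0)
    (hm : a.adjugate ≠ 0) :
    ∃ (N : Matrix (Fin 2) (Fin 2) ℂ[X][X]) (κ : ℂ) (ψ : ℂ[X]) (b : ℂ[X][X]), N.IsSymm ∧ κ ≠ 0 ∧
      ψ ≠ 0 ∧ N.det = C (C κ) * C ψ ^ 2 * f ∧ ¬ f ∣ b ∧ f ∣ b ^ 2 - h * N 0 0 := by
  have hk : ∀ c : Fin 3 → ℂ, (∀ i, ∑ j, a i j * C (C (c j)) = 0) → c = 0 :=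
    fun c hc => T.no_kernel hf hc
  obtain ⟨s, ψ, hs, hψ, hsu⟩ := exists_combo hf.ne_zero hκ hu hN h0 hm hk
  obtain ⟨w, w', e0, e1, e2⟩ := exists_cross hs
  have hw : w ≠ 0 := by
    rintro rfl
    apply hs
    funext i
    fin_cases i
    · simpa using e0
    · simpa using e1
    · simpa using e2
  refine ⟨!![gr a w w, gr a w w'; gr a w w', gr a w' w'], κ, ψ, comb β w, ?_, hκ, hψ, ?_,
    T.comb_ne hw, ?_⟩
  · exact symm_two _ _ _
  · rw [Matrix.det_fin_two_of, gram_det T.sa e0 e1 e2, ← hsu]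
    simp only [hN, Fin.sum_univ_three]
    ring
  · change f ∣ comb β w ^ 2 - h * gr a w w
    rw [sq]
    exact T.comb_mul w w

end Vale.Agent.P287.H925V
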