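import Vale.Agent.P287.H925V.Global

/-!
A splitting curve of odd degree: the form `g q` is `α² - A(y)`, or `q` is isotropic.
-/

namespace Vale.Agent.P287.H925V

open Module Matrix Polynomial Vale.Agent.P287 Vale.Agent.P287.Theta

section isometry

variable {K : Type*} [Field K]

theorem exists_isometry {Q G : Matrix (Fin 4) (Fin 4) K} (hG0 : G.det ≠ 0) {γ : K}
    (hγ : γ ≠ 0) (U : Submodule K (Fin 4 ⊕ Fin 4 → K))
    (hU : ∀ x ∈ U, ∀ y ∈ U, (fun i => x (Sum.inl i)) ⬝ᵥ Q *ᵥ (fun i => y (Sum.inl i)) -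
      γ * ((fun i => x (Sum.inr i)) ⬝ᵥ G *ᵥ (fun i => y (Sum.inr i))) = 0)
    (hd : finrank K U = 4) :
    (∃ v : Fin 4 → K, v ≠ 0 ∧ v ⬝ᵥ Q *ᵥ v = 0) ∨
      ∃ φ : (Fin 4 → K) ≃ₗ[K] (Fin 4 → K),
        ∀ v, φ v ⬝ᵥ G *ᵥ φ v = γ⁻¹ * (v ⬝ᵥ Q *ᵥ v) := by
  by_cases hiso : ∃ v : Fin 4 → K, v ≠ 0 ∧ v ⬝ᵥ Q *ᵥ v = 0
  · exact Or.inl hiso
  right
  have han : ∀ v : Fin 4 → K, v ⬝ᵥ Q *ᵥ v = 0 → v = 0 := by
    intro v hv
    by_contra h0
    exact hiso ⟨v, h0, hv⟩
  let p1 : U →ₗ[K] (Fin 4 → K) := (LinearMap.funLeft K K Sum.inl) ∘ₗ U.subtype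
  let p2 : U →ₗ[K] (Fin 4 → K) := (LinearMap.funLeft K K Sum.inr) ∘ₗ U.subtype
  have hp2 : Function.Injective p2 := by
    rw [injective_iff_map_eq_zero]
    rintro ⟨u, hu⟩ hu2
    have hu2' : (fun i => u (Sum.inr i)) = (0 : Fin 4 → K) := hu2
    have h3 := hU u hu u hu
    rw [hu2', Matrix.mulVec_zero, dotProduct_zero, mul_zero, sub_zero] at h3
    have h4 := han _ h3
    apply Subtype.ext
    funext j
    rcases j with j | j
    · exact congrFun h4 j
    · exact congrFun hu2' j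
  let e2 : U ≃ₗ[K] (Fin 4 → K) := p2.linearEquivOfInjective hp2 (by rw [hd]; simp)
  have he2 : ∀ u, e2 u = p2 u := fun u => rfl
  let ψ : (Fin 4 → K) →ₗ[K] (Fin 4 → K) := p1 ∘ₗ e2.symm.toLinearMap
  have hψ : ∀ w w', ψ w ⬝ᵥ Q *ᵥ ψ w' = γ * (w ⬝ᵥ G *ᵥ w') := by
    intro w w'
    have h1 := hU _ (e2.symm w).2 _ (e2.symm w').2
    have h2 : ∀ w, (fun i => (e2.symm w : Fin 4 ⊕ Fin 4 → K) (Sum.inr i)) = w := by
      intro w
      have := e2.apply_symm_apply w
      rw [he2] at this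
      exact this
    rw [h2, h2, sub_eq_zero] at h1
    exact h1
  have hψi : Function.Injective ψ := by
    rw [injective_iff_map_eq_zero]
    intro w hw
    have h1 : G *ᵥ w = 0 := by
      funext i
      have h2 := hψ (Pi.single i 1) w
      rw [hw, Matrix.mulVec_zero, dotProduct_zero, single_one_dotProduct] at h2
      exact (mul_eq_zero.mp h2.symm).resolve_left hγ
    exact Matrix.eq_zero_of_mulVec_eq_zero hG0 h1
  let E : (Fin 4 → K) ≃ₗ[K] (Fin 4 → K) := ψ.linearEquivOfInjective hψi rfl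
  have hE : ∀ w, E w = ψ w := fun u => rfl
  refine ⟨E.symm, fun v => ?_⟩
  have h1 := hψ (E.symm v) (E.symm v)
  rw [← hE, E.apply_symm_apply] at h1
  rw [h1, ← mul_assoc, inv_mul_cancel₀ hγ, one_mul]

end isometry

section blk

variable {R S : Type*} [CommRing R] [CommRing S]

/-- The block diagonal matrix with blocks `x` and `X`. -/
def blk (x : R) (X : Matrix (Fin 3) (Fin 3) R) : Matrix (Fin 4) (Fin 4) R :=
  Matrix.of (Fin.cons (Fin.cons x fun _ => 0) fun i => Fin.cons 0 (X i))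

@[simp] lemma blk_zero (x : R) (X : Matrix (Fin 3) (Fin 3) R) : blk x X 0 0 = x := rfl
@[simp] lemma blk_zs (x : R) (X : Matrix (Fin 3) (Fin 3) R) (j : Fin 3) :
    blk x X 0 j.succ = 0 := rfl
@[simp] lemma blk_sz (x : R) (X : Matrix (Fin 3) (Fin 3) R) (i : Fin 3) :
    blk x X i.succ 0 = 0 := rfl
@[simp] lemma blk_ss (x : R) (X : Matrix (Fin 3) (Fin 3) R) (i j : Fin 3) :
    blk x X i.succ j.succ = X i j := rfl

lemma blk_symm {x : R} {X : Matrix (Fin 3) (Fin 3) R} (h : X.IsSymm) : (blk x X).IsSymm := by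
  refine Matrix.IsSymm.ext fun i j => ?_
  refine Fin.cases ?_ (fun i => ?_) i <;> refine Fin.cases ?_ (fun j => ?_) j
  · rfl
  · rfl
  · rfl
  · exact h.apply i j

lemma blk_mul (x y : R) (X Y : Matrix (Fin 3) (Fin 3) R) :
    blk x X * blk y Y = blk (x * y) (X * Y) := by
  refine Matrix.ext fun i j => ?_
  refine Fin.cases ?_ (fun i => ?_) i <;> refine Fin.cases ?_ (fun j => ?_) j <;>
    rw [Matrix.mul_apply, Fin.sum_univ_succ]
  · simp
  · simp
  · simp
  · simp [Matrix.mul_apply]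

lemma blk_smul_one (x : R) : blk x (x • (1 : Matrix (Fin 3) (Fin 3) R)) =
    x • (1 : Matrix (Fin 4) (Fin 4) R) := by
  refine Matrix.ext fun i j => ?_
  refine Fin.cases ?_ (fun i => ?_) i <;> refine Fin.cases ?_ (fun j => ?_) j
  · simp
  · rw [blk_zs, Matrix.smul_apply, Matrix.one_apply_ne (Fin.succ_ne_zero j).symm, smul_zero]
  · rw [blk_sz, Matrix.smul_apply, Matrix.one_apply_ne (Fin.succ_ne_zero i), smul_zero]
  · rw [blk_ss, Matrix.smul_apply, Matrix.smul_apply]
    congr 1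
    by_cases hij : i = j
    · subst hij
      rw [Matrix.one_apply_eq, Matrix.one_apply_eq]
    · rw [Matrix.one_apply_ne hij, Matrix.one_apply_ne fun h => hij (Fin.succ_injective _ h)]

lemma blk_det (x : R) (X : Matrix (Fin 3) (Fin 3) R) : (blk x X).det = x * X.det := by
  rw [Matrix.det_succ_row_zero, Fin.sum_univ_succ]
  have h1 : (blk x X).submatrix Fin.succ (Fin.succAbove 0) = X := by
    refine Matrix.ext fun i j => ?_
    rw [Matrix.submatrix_apply, Fin.succAbove_zero, blk_ss]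
  rw [h1]
  simp

lemma blk_map (φ : R →+* S) (x : R) (X : Matrix (Fin 3) (Fin 3) R) :
    (blk x X).map φ = blk (φ x) (X.map φ) := by
  refine Matrix.ext fun i j => ?_
  refine Fin.cases ?_ (fun i => ?_) i <;> refine Fin.cases ?_ (fun j => ?_) j
  · rfl
  · exact map_zero φ
  · exact map_zero φ
  · rfl

lemma blk_qf (x : R) (X : Matrix (Fin 3) (Fin 3) R) (v : Fin 4 → R) :
    v ⬝ᵥ (blk x X) *ᵥ v = x * v 0 ^ 2 + (fun i => v (Fin.succ i)) ⬝ᵥ X *ᵥ (fun i => v (Fin.succ i)) := by
  rw [dotProduct, Fin.sum_univ_succ]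
  congr 1
  · rw [Matrix.mulVec, dotProduct, Fin.sum_univ_succ]
    simp
    ring
  · refine Finset.sum_congr rfl fun i _ => ?_
    rw [Matrix.mulVec, dotProduct, Fin.sum_univ_succ]
    simp [Matrix.mulVec, dotProduct]

end blk

section core

variable {M : Matrix (Fin 4) (Fin 4) R3} {g : R3} {m : ℕ}

/-- **Odd core.** A splitting curve of odd degree without section of degree `m + 3`: either the
form `q` of the fibration is isotropic, or `g q` is `α² - A(y)`, for a symmetric matrix `A` of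
quadratic forms with determinant `f`. -/
theorem odd_core (hM : FibShape M) (hs : SmoothTernary M.det) (hδ0 : M.adjugate 0 0 ≠ 0)
    (hg : g.IsHomogeneous (2 * m + 1)) (hm : 1 ≤ m) (hgi : Irreducible g) (hfg : ¬ M.det ∣ g)
    (hsq : SquareMod M.det g)
    (hne : ∀ B : R3, B.IsHomogeneous (m + 3) →
      B ^ 2 ∈ Ideal.span {M.adjugate 0 0 * g, M.det} → M.det ∣ B) :
    (∃ v : Fin 4 → RatK, v ≠ 0 ∧ v ⬝ᵥ (M.map (MvPolynomial.aeval tvec)) *ᵥ v = 0) ∨
      ∃ (A : Matrix (Fin 3) (Fin 3) R3) (c0 c1 : ℂ) (β : Fin 3 → R3), c0 ≠ 0 ∧ c1 ≠ 0 ∧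
        A.IsSymm ∧ (∀ i j, (A i j).IsHomogeneous 2) ∧ A.det = MvPolynomial.C c0 * M.det ∧
        (∀ i, (β i).IsHomogeneous (m + 4)) ∧
        (∀ i j, M.det ∣ β i * β j - MvPolynomial.C c1 * (M.adjugate 0 0 * g * A.adjugate i j)) ∧
        (∃ i, ¬ M.det ∣ β i) ∧
        ∃ φ : (Fin 4 → RatK) ≃ₗ[RatK] (Fin 4 → RatK), ∀ v,
          MvPolynomial.aeval tvec g * (v ⬝ᵥ (M.map (MvPolynomial.aeval tvec)) *ᵥ v) =
            φ v 0 ^ 2 - (fun i => φ v (Fin.succ i)) ⬝ᵥ (A.map (MvPolynomial.aeval tvec)) *ᵥ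
              (fun i => φ v (Fin.succ i)) := by
  have hfi := irreducible_of_smooth hM.det (by norm_num) hs
  have hpf : Prime (dh M.det) := prime_dh hM.det (by norm_num) hfi
  have hdvd : ∀ {P : R3} {n : ℕ}, P.IsHomogeneous n → dh M.det ∣ dh P → M.det ∣ P :=
    fun hP h => dvd_of_dh_dvd' hM.det (by norm_num) hfi hP h
  have hfδ := dh_f_ndvd hM hfi hδ0
  have hpfh : ¬ dh M.det ∣ dh (M.adjugate 0 0 * g) := by
    rw [map_mul]
    intro h1
    rcases hpf.dvd_or_dvd h1 with h2 | h2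
    · exact hfδ (hdvd hM.delta h2)
    · exact hfg (hdvd hg h2)
  obtain ⟨β, a, T, hO⟩ := hthree_of_curve hM hs hδ0 hg hm hgi hfg hsq hne
  have TC := T.chart hM.det hfi
  rcases hO with ⟨A, c0, hc0, hA, hA2, hAa, hdet⟩ | ⟨h0, hadj, κ, u, hκ, hu, hN⟩
  · -- matrix of quadrics
    obtain ⟨ι, hι⟩ := IsAlgClosed.exists_pow_nat_eq (-1 : ℂ) (n := 2) (by norm_num)
    have hιC : (C (C ι) : ℂ[X][X]) ^ 2 = -1 := by
      rw [← C_pow, ← C_pow, hι, C_neg, C_neg, C_1, C_1]
    have hr := TC.rankOne hpf hpfh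
    have hβ0 : dh M.det ∣ dh (β 0) ^ 2 - dh (M.adjugate 0 0 * g) * (a.map dh) 0 0 := by
      rw [sq]; exact TC.mul 0 0
    have hfβ : ¬ dh M.det ∣ dh (β 0) := by
      have h1 := TC.comb_ne (c := ![1, 0, 0]) (by
        intro h1
        have := congrFun h1 0
        simp at this)
      simpa [comb, Fin.sum_univ_three] using h1
    have hCD : ChartData (M.map dh) (blk 1 (-(A.map dh))) (blk (dh M.det) (-(a.map dh))) (dh g)
        (C (C ι) * dh (β 0)) (Fin.succ (0 : Fin 3)) (-c0) := by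
      refine ⟨neg_ne_zero.mpr hc0, map_symm' dh hM.symm, blk_symm (map_symm' dh hA).neg,
        blk_symm (map_symm' dh T.sa).neg, ?_, ?_, ?_,
        prime_dh hg (by omega) hgi, natDegree_dh_ne hg (by omega) hgi, ?_, ?_, ?_, ?_, ?_, ?_, ?_⟩
      · rw [blk_mul, one_mul, Matrix.neg_mul, Matrix.mul_neg, neg_neg, ← Matrix.map_mul, hAa, det_dh, ← blk_smul_one]
        congr 1
        exact Matrix.ext fun i j => dh_smul_one _ i j
      · rw [det_dh]; exact hpf
      · rw [det_dh]; exact natDegree_dh_ne hM.det (by norm_num) hfi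
      · rw [det_dh]
        exact fun h => hfg (hdvd hg h)
      · rw [det_dh, adj_dh]
        exact fun h => hfδ (hdvd hM.delta h)
      · rw [det_dh, blk_ss, Matrix.neg_apply]
        intro h1
        replace h1 := (dvd_neg (α := ℂ[X][X])).mp h1
        apply hfβ
        apply dvd_of_sq hpf
        have h2 := dvd_add hβ0 (h1.mul_left (dh (M.adjugate 0 0 * g)))
        rwa [sub_add_cancel] at h2
      · intro i j
        rw [det_dh]
        refine Fin.cases ?_ (fun i => ?_) i <;> refine Fin.cases ?_ (fun j => ?_) j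
        · rw [blk_zero, blk_zs, zero_mul, sub_zero]
          exact Dvd.intro_left _ rfl
        · rw [blk_zs, blk_zs, mul_zero, zero_mul, sub_zero]
          exact dvd_zero _
        · rw [blk_sz, blk_sz, mul_zero, mul_zero, sub_zero]
          exact dvd_zero _
        · rw [blk_ss, blk_ss, blk_ss, blk_ss, Matrix.neg_apply, Matrix.neg_apply, Matrix.neg_apply,
            Matrix.neg_apply]
          refine (hr 0 0 i j).trans (dvd_of_eq ?_)
          ring
      · rw [det_dh, adj_dh, blk_ss, Matrix.neg_apply, mul_pow, hιC]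
        have : -1 * dh (β 0) ^ 2 - dh (M.adjugate 0 0) * dh g * -(a.map dh) 0 0 =
            -(dh (β 0) ^ 2 - dh (M.adjugate 0 0 * g) * (a.map dh) 0 0) := by
          rw [map_mul]; ring
        rw [this]
        exact (dvd_neg (α := ℂ[X][X])).mpr hβ0
      · rw [blk_det, one_mul, det_dh, Matrix.det_neg, Fintype.card_fin, det_dh, hdet, map_mul,
          dh_C, C_neg, C_neg]
        ring
      · rw [det_dh]
        exact hsq.dh hg (by omega) hgi
    obtain ⟨U, hU, hUd⟩ := ChartData.lagrangian (n := 2) hCD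
    rw [map_aeval_tvec] at hU
    have hγ : crMap (dh g) ≠ 0 := by
      rw [Ne, map_eq_zero_iff _ crMap_injective]
      exact dh_ne_zero hg hgi.ne_zero
    have hBm : (blk 1 (-(A.map dh))).map crMap = blk 1 (-(A.map (MvPolynomial.aeval tvec))) := by
      rw [blk_map, map_one, ← map_aeval_tvec]
      congr 1
      refine Matrix.ext fun i j => ?_
      simp
    rcases exists_isometry (Q := M.map (MvPolynomial.aeval tvec))
      (G := blk 1 (-(A.map (MvPolynomial.aeval tvec)))) (by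
        rw [← hBm]
        have h1 : ((blk 1 (-(A.map dh))).map crMap).det = crMap (blk 1 (-(A.map dh))).det := by
          rw [RingHom.map_det]; rfl
        rw [h1, Ne, map_eq_zero_iff _ crMap_injective, hCD.hdet, det_dh]
        exact mul_ne_zero (isUnit_CC (neg_ne_zero.mpr hc0)).ne_zero hpf.ne_zero) hγ U
        (by rw [← hBm]; exact hU) hUd with h | ⟨φ, hφ⟩
    · exact Or.inl h
    · right
      have hadjA : A.adjugate = (MvPolynomial.C c0 : R3) • a := by
        have h1 : A.det • a = M.det • A.adjugate := by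
          calc A.det • a = (A.adjugate * A) * a := by
                rw [Matrix.adjugate_mul, Matrix.smul_mul, Matrix.one_mul]
            _ = A.adjugate * (A * a) := by rw [Matrix.mul_assoc]
            _ = M.det • A.adjugate := by rw [hAa, Matrix.mul_smul, Matrix.mul_one]
        refine Matrix.ext fun i j => ?_
        have h2 := congrFun (congrFun h1 i) j
        rw [Matrix.smul_apply, Matrix.smul_apply, smul_eq_mul, smul_eq_mul, hdet] at h2
        rw [Matrix.smul_apply, smul_eq_mul]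
        refine mul_left_cancel₀ hfi.ne_zero ?_
        rw [← h2]
        ring
      refine ⟨A, c0, c0⁻¹, β, hc0, inv_ne_zero hc0, hA, hA2, hdet, T.dβ, ?_, ⟨0, ?_⟩,
        φ.trans (LinearEquiv.smulOfNeZero RatK _ _ hγ), ?_⟩
      · intro i j
        rw [hadjA, Matrix.smul_apply, smul_eq_mul]
        have h1 : (MvPolynomial.C c0⁻¹ * MvPolynomial.C c0 : R3) = 1 := by
          rw [← MvPolynomial.C_mul, inv_mul_cancel₀ hc0, MvPolynomial.C_1]
        have h2 : MvPolynomial.C c0⁻¹ * (M.adjugate 0 0 * g * (MvPolynomial.C c0 * a i j)) =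
            M.adjugate 0 0 * g * a i j := by
          linear_combination (M.adjugate 0 0 * g * a i j) * h1
        rw [h2]
        exact T.mul i j
      · exact fun h1 => hfβ (dh_dvd h1)
      intro v
      have h1 := hφ v
      rw [blk_qf] at h1
      have h2 : (φ.trans (LinearEquiv.smulOfNeZero RatK (Fin 4 → RatK) _ hγ)) v =
          crMap (dh g) • φ v := rfl
      rw [h2, ← crMap_dh]
      have h3 : (fun i : Fin 3 => (crMap (dh g) • φ v) (Fin.succ i)) =
          crMap (dh g) • (fun i : Fin 3 => φ v (Fin.succ i)) := rfl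
      rw [h3, Matrix.mulVec_smul, dotProduct_smul, smul_dotProduct, Pi.smul_apply]
      simp only [smul_eq_mul]
      rw [Matrix.neg_mulVec, dotProduct_neg] at h1
      have h4 : crMap (dh g) * (v ⬝ᵥ (M.map (MvPolynomial.aeval tvec)) *ᵥ v) =
          crMap (dh g) ^ 2 * ((crMap (dh g))⁻¹ * (v ⬝ᵥ (M.map (MvPolynomial.aeval tvec)) *ᵥ v)) := by
        field_simp
      rw [h4, ← h1]
      ring
  · -- degenerate
    left
    have hdetd : (a.map dh).det = 0 := by rw [det_dh, h0, map_zero]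
    obtain ⟨N, κ', ψ, b, hNs, hκ', hψ, hNdet, hfb, hb⟩ := exists_binary hpf TC hκ
      (fun i => TD_dh (hu i)) (by
        intro i j
        rw [adj_dh, hN, map_mul, map_mul, map_mul, dh_C]) hdetd (by
        intro h1
        apply hadj
        ext1 i j
        refine dh_inj (homog_adj T.da i j) (MvPolynomial.isHomogeneous_zero _ _ _) ?_
        rw [← adj_dh, h1]
        simp)
    obtain ⟨v, hv, hqv⟩ := isotropic_ff (M := M.map dh) (N := N) (g := dh g) (b := b)
      (map_symm' dh hM.symm) hNs hκ' hψ (by rw [det_dh]; exact hNdet) (by rw [det_dh]; exact hpf)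
      (by rw [det_dh]; exact natDegree_dh_ne hM.det (by norm_num) hfi)
      (prime_dh hg (by omega) hgi) (natDegree_dh_ne hg (by omega) hgi)
      (by rw [det_dh]; exact fun h => hfg (hdvd hg h))
      (by rw [det_dh, adj_dh]; exact fun h => hfδ (hdvd hM.delta h))
      (by rw [det_dh]; exact hsq.dh hg (by omega) hgi)
      (by rw [det_dh]; exact hfb)
      (by rw [det_dh, adj_dh, ← map_mul]; exact hb)
    rw [map_aeval_tvec] at hqv
    exact ⟨v, hv, hqv⟩

end core

end Vale.Agent.P287.H925V
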