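import Vale.Agent.P287.H925V.Main

/-!
The literal form of the block [V], when there is no section of degree `m + 3`.
-/

namespace Vale.Agent.P287.H925V

open Matrix Vale.Agent.P287 Vale.Agent.P287.Theta

/-- [V], when there is no section of degree `m + 3`. -/
theorem stmtV_of (M : Matrix (Fin 4) (Fin 4) R3) (g : R3) (m : ℕ) (hM : FibShape M)
    (hs : SmoothTernary M.det) (hδ : M.adjugate 0 0 ≠ 0) (hm : 1 ≤ m)
    (hg : g.IsHomogeneous (2 * m + 1)) (hgi : Irreducible g) (hgf : ¬ g ∣ M.det)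
    (hsq : SquareMod M.det g)
    (hne : ∀ B : R3, B.IsHomogeneous (m + 3) →
      B ^ 2 ∈ Ideal.span {M.adjugate 0 0 * g, M.det} → M.det ∣ B) :
    (∃ v : Fin 4 → RatK, v ≠ 0 ∧ v ⬝ᵥ (M.map (MvPolynomial.aeval tvec)) *ᵥ v = 0) ∨
    ∃ (A : Matrix (Fin 3) (Fin 3) R3) (c c₁ : ℂ) (b : Fin 3 → R3) (l : RatK)
      (φ : (Fin 4 → RatK) ≃ₗ[RatK] (RatK × (Fin 3 → RatK))),
      c ≠ 0 ∧ A.IsSymm ∧ (∀ i j, (A i j).IsHomogeneous 2) ∧ A.det = MvPolynomial.C c * M.det ∧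
      c₁ ≠ 0 ∧ (∀ i, (b i).IsHomogeneous (m + 4)) ∧
      (∀ i j, M.det ∣ b i * b j - MvPolynomial.C c₁ * (M.adjugate 0 0 * g * A.adjugate i j)) ∧
      (∃ i, ¬ M.det ∣ b i) ∧
      ∀ v, (φ v).1 ^ 2 - ∑ i, ∑ j, MvPolynomial.aeval tvec (A i j) * ((φ v).2 i * (φ v).2 j) =
        l * (v ⬝ᵥ (M.map (MvPolynomial.aeval tvec)) *ᵥ v) := by
  have hfi := irreducible_of_smooth hM.det (by norm_num) hs
  have hfg : ¬ M.det ∣ g := fun h => hgf (hfi.associated_of_dvd hgi h).symm.dvd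
  rcases odd_core hM hs hδ hg hm hgi hfg hsq hne with
    h | ⟨A, c, c1, b, hc, hc1, hA, hA2, hAd, hb, hbb, hb0, φ, hφ⟩
  · exact Or.inl h
  · right
    refine ⟨A, c, c1, b, MvPolynomial.aeval tvec g, φ.trans splitE, hc, hA, hA2, hAd, hc1, hb,
      hbb, hb0, ?_⟩
    intro v
    have h1 := hφ v
    rw [qf_expand A] at h1
    exact h1.symm

end Vale.Agent.P287.H925V
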