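import Vale.Agent.P287.H925V.Contact
import Vale.Agent.P287.H925V.StmtV
import Vale.Agent.P287.H597.OddSkel

/-!
The block [V] of the odd theta theorem.
-/

namespace Vale.Agent.P287.H925V

open Matrix Vale.Agent.P287 Vale.Agent.P287.Theta

/-- A section of degree `m + 3`: the form is isotropic. -/
theorem isotropic_of_section {M : Matrix (Fin 4) (Fin 4) R3} {g : R3} {m : ℕ} (hM : FibShape M)
    (hs : SmoothTernary M.det) (hδ : M.adjugate 0 0 ≠ 0) (hm : 1 ≤ m)
    (hg : g.IsHomogeneous (2 * m + 1)) (hgi : Irreducible g) (hgf : ¬ g ∣ M.det)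
    (hsq : SquareMod M.det g) {B : R3} (hB : B.IsHomogeneous (m + 3))
    (hB2 : B ^ 2 ∈ Ideal.span {M.adjugate 0 0 * g, M.det}) (hfB : ¬ M.det ∣ B) :
    ∃ v : Fin 4 → RatK, v ≠ 0 ∧ v ⬝ᵥ (M.map (MvPolynomial.aeval tvec)) *ᵥ v = 0 := by
  have H : CData M g (2 * m + 1) := {
    sM := hM.symm
    hf := hM.det
    pf := (irreducible_of_smooth hM.det (by norm_num) hs).prime
    sf := hs
    hδ := hM.delta
    δ0 := hδ
    hg := hg
    hn := by omega
    pg := hgi.prime
    hgf := hgf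
    hsq := hsq }
  have hdeg : (B ^ 2).IsHomogeneous (3 + (2 * m + 1) + 2) := by
    have h1 := hB.pow 2
    have e : (m + 3) * 2 = 3 + (2 * m + 1) + 2 := by ring
    rwa [e] at h1
  obtain ⟨a, ha, hfa⟩ := exists_homog_coeff hdeg (hM.delta.mul hg) hM.det hB2
  exact H.isotropic ha hB hfB hfa

/-- **Block [V]** of the odd theta theorem. -/
theorem stmtV : H597.StmtV := by
  intro M g m hM hs hδ hm hg hgi hgf hsq
  by_cases hne : ∀ B : R3, B.IsHomogeneous (m + 3) →
      B ^ 2 ∈ Ideal.span {M.adjugate 0 0 * g, M.det} → M.det ∣ B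
  · exact stmtV_of M g m hM hs hδ (by omega) hg hgi hgf hsq hne
  · push Not at hne
    obtain ⟨B, hB, hB2, hfB⟩ := hne
    exact Or.inl (isotropic_of_section hM hs hδ (by omega) hg hgi hgf hsq hB hB2 hfB)

end Vale.Agent.P287.H925V
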