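import Vale.Agent.P287.H925V.Verra
import Vale.Agent.P287.Theta.GoodCoords

/-!
The three sections and the two outcomes, independently of the coordinates.
-/

namespace Vale.Agent.P287.H925V

open Polynomial Vale.Agent.P287 Vale.Agent.P287.Theta

section

variable {f h : R3} {m : ℕ} {T S : Matrix (Fin 3) (Fin 3) ℂ} {β : Fin 3 → R3}
  {a : Matrix (Fin 3) (Fin 3) R3}

lemma sb_C (S : Matrix (Fin 3) (Fin 3) ℂ) (c : ℂ) : sb S (MvPolynomial.C c) = MvPolynomial.C c := by
  rw [← MvPolynomial.algebraMap_eq, AlgHom.commutes]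

lemma HThree.sb (H : HThree (sb T f) (sb T h) m β a) (hTS : T * S = 1) :
    HThree f h m (fun i => sb S (β i)) (a.map (sb S)) := by
  have hf : ∀ P, Theta.sb S (Theta.sb T P) = P := sb_inv hTS
  refine ⟨fun i => sb_homog S (H.dβ i), ?_, fun i j => sb_homog S (H.da i j), ?_, ?_⟩
  · rw [Matrix.IsSymm, ← Matrix.transpose_map, H.sa.eq]
  · intro i j
    have h1 := map_dvd (Theta.sb S) (H.mul i j)
    rwa [hf, map_sub, map_mul, map_mul, hf] at h1
  · intro c hc
    apply H.ind
    have h2 := map_dvd (Theta.sb T) hc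
    rw [map_sum] at h2
    simp only [map_mul, sb_C, sb_inv (mul_eq_one_comm.mp hTS)] at h2
    exact h2

lemma Outcome.sb (H : Outcome (sb T f) a) (hTS : T * S = 1) : Outcome f (a.map (sb S)) := by
  have hf : ∀ P, Theta.sb S (Theta.sb T P) = P := sb_inv hTS
  rcases H with ⟨A, c0, hc0, hA, hA2, hAa, hdet⟩ | ⟨h0, hadj, κ, u, hκ, hu, hN⟩
  · left
    refine ⟨A.map (Theta.sb S), c0, hc0, ?_, fun i j => sb_homog S (hA2 i j), ?_, ?_⟩
    · rw [Matrix.IsSymm, ← Matrix.transpose_map, hA.eq]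
    · have h1 : (A * a).map (Theta.sb S) =
          (Theta.sb T f • (1 : Matrix (Fin 3) (Fin 3) R3)).map (Theta.sb S) := by rw [hAa]
      rw [Matrix.map_mul] at h1
      rw [h1]
      refine Matrix.ext fun i j => ?_
      rw [Matrix.map_apply, Matrix.smul_apply, Matrix.smul_apply, smul_eq_mul, smul_eq_mul,
        map_mul, hf]
      by_cases hij : i = j
      · subst hij
        rw [Matrix.one_apply_eq, map_one]
      · rw [Matrix.one_apply_ne hij, map_zero]
    · rw [det_sb, hdet, map_mul, sb_C, hf]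
  · right
    refine ⟨?_, ?_, κ, fun i => Theta.sb S (u i), hκ, fun i => sb_homog S (hu i), ?_⟩
    · rw [det_sb, h0, map_zero]
    · intro h1
      apply hadj
      ext1 i j
      have h2 := congrFun (congrFun h1 i) j
      rw [adj_sb] at h2
      have h3 := congrArg (Theta.sb T) h2
      rw [sb_inv (mul_eq_one_comm.mp hTS)] at h3
      rw [h3]
      simp
    · intro i j
      rw [adj_sb, hN]
      simp only [map_mul, hf, sb_C]

/-- The three sections, from good coordinates. -/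
theorem exists_hthree (hf : f.IsHomogeneous 6) (hfi : Irreducible f) (hs : SmoothTernary f)
    (hh : h.IsHomogeneous (2 * m + 4)) (hm : 1 ≤ m) (hfh : ¬ f ∣ h)
    (hTS : T * S = 1) {z : Fin 6 → ℂ} {c6 : ℂ}
    (H : AtInfinity (dh (sb T f)) (dh (sb T h)) (2 * m + 4) z c6)
    (hev : ∀ x y : ℂ, evalEval x y (dh (sb T f)) = 0 →
      ∃ u ε : ℂ[X][X], evalEval x y u ≠ 0 ∧ dh (sb T f) ∣ u * dh (sb T h) - ε ^ 2)
    (hne : ∀ B : R3, B.IsHomogeneous (m + 3) → B ^ 2 ∈ Ideal.span {h, f} → f ∣ B) :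
    ∃ β a, HThree f h m β a ∧ Outcome f a := by
  obtain ⟨β, a, hβ, hO⟩ := hthree_in_chart (f := sb T f) (h := sb T h) (m := m) (sb_homog T hf)
    (sb_irreducible hTS hfi) (sb_smooth hTS hs) (sb_homog T hh) hm
    (fun h1 => hfh ((sb_dvd_iff hTS).mp h1)) H hev (by
      intro B hB hB2
      obtain ⟨a, b, hab⟩ := Ideal.mem_span_pair.mp hB2
      have h1 := hne (sb S B) (sb_homog S hB) (Ideal.mem_span_pair.mpr ⟨sb S a, sb S b, by
        have := congrArg (sb S) hab
        rw [map_add, map_mul, map_mul, sb_inv hTS, sb_inv hTS, map_pow] at this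
        exact this⟩)
      have h2 := map_dvd (sb T) h1
      rwa [sb_inv (mul_eq_one_comm.mp hTS)] at h2)
  exact ⟨_, _, hβ.sb hTS, hO.sb hTS⟩

end

section

variable {M : Matrix (Fin 4) (Fin 4) R3} {g : R3} {n : ℕ}

/-- Evenness, for a curve of any degree at least two. -/
lemma evenness' (hM : FibShape M) (hs : SmoothTernary M.det) (hδ0 : M.adjugate 0 0 ≠ 0)
    (hg : g.IsHomogeneous n) (hn : 2 ≤ n) (hgi : Irreducible g) (hsq : SquareMod M.det g)
    (x y : ℂ) (hp : evalEval x y (dh M.det) = 0) :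
    ∃ u ε : ℂ[X][X], evalEval x y u ≠ 0 ∧
      dh M.det ∣ u * dh (M.adjugate 0 0 * g) - ε ^ 2 := by
  have hfi := irreducible_of_smooth hM.det (by norm_num) hs
  have hpf : Prime (dh M.det) := prime_dh hM.det (by norm_num) hfi
  have hsm := smooth_dh hM.det hs x y hp
  have hpg : Prime (dh g) := prime_dh hg hn hgi
  obtain ⟨u1, ε1, hu1, h1⟩ := even_adj (M := M.map dh) (map_symm' dh hM.symm)
    (by rw [det_dh]; exact hpf)
    (by
      rw [det_dh, adj_dh]
      exact fun h => dh_f_ndvd hM hfi hδ0 (dvd_of_dh_dvd' hM.det (by norm_num) hfi hM.delta h))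
    (x := x) (y := y) (by rw [det_dh]; exact hp) (by rw [det_dh]; exact hsm)
  obtain ⟨u2, ε2, hu2, h2⟩ := even_norm hpg (hsq.dh hg hn hgi) hp hsm
  rw [det_dh, adj_dh] at h1
  refine ⟨u1 * u2, ε1 * ε2, ?_, ?_⟩
  · rw [evalEval_mul]
    exact mul_ne_zero hu1 hu2
  · have : u1 * u2 * dh (M.adjugate 0 0 * g) - (ε1 * ε2) ^ 2 =
        (u1 * dh (M.adjugate 0 0) - ε1 ^ 2) * (u2 * dh g) + ε1 ^ 2 * (u2 * dh g - ε2 ^ 2) := by
      rw [map_mul]
      ring
    rw [this]
    exact dvd_add (h1.mul_right _) (h2.mul_left _)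

/-- The three sections attached to a splitting curve of odd degree. -/
theorem hthree_of_curve {m : ℕ} (hM : FibShape M) (hs : SmoothTernary M.det)
    (hδ0 : M.adjugate 0 0 ≠ 0) (hg : g.IsHomogeneous (2 * m + 1)) (hm : 1 ≤ m)
    (hgi : Irreducible g) (hfg : ¬ M.det ∣ g) (hsq : SquareMod M.det g)
    (hne : ∀ B : R3, B.IsHomogeneous (m + 3) →
      B ^ 2 ∈ Ideal.span {M.adjugate 0 0 * g, M.det} → M.det ∣ B) :
    ∃ β a, HThree M.det (M.adjugate 0 0 * g) m β a ∧ Outcome M.det a := by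
  have hfi := irreducible_of_smooth hM.det (by norm_num) hs
  have hfδ := dh_f_ndvd hM hfi hδ0
  have hh : (M.adjugate 0 0 * g).IsHomogeneous (2 * m + 4) := by
    have := hM.delta.mul hg
    rwa [show 3 + (2 * m + 1) = 2 * m + 4 by ring] at this
  have hfh : ¬ M.det ∣ M.adjugate 0 0 * g := fun h =>
    (hfi.prime.dvd_or_dvd h).elim hfδ hfg
  obtain ⟨T, S, hTS, z, c6, H⟩ := exists_coords hM.det hfi hh hfh
  refine exists_hthree hM.det hfi hs hh hm hfh hTS H ?_ hne
  intro x y hp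
  have hsT : SmoothTernary (M.map (sb T)).det := by
    rw [det_sb]; exact sb_smooth hTS hs
  have h1 := evenness' (M := M.map (sb T)) (g := sb T g) (n := 2 * m + 1) (hM.sb T) hsT
    (by
      rw [adj_sb]
      intro h0
      have := congrArg (sb S) h0
      rw [sb_inv hTS, map_zero] at this
      exact hδ0 this)
    (sb_homog T hg) (by omega) (sb_irreducible hTS hgi)
    (by rw [det_sb]; exact hsq.sb hTS) x y (by rw [det_sb]; exact hp)
  rwa [det_sb, adj_sb, ← map_mul] at h1

end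

end Vale.Agent.P287.H925V
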