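import Vale.Agent.P287.H925V.Square

/-!
The case where the determinant of the matrix of products vanishes.
-/

namespace Vale.Agent.P287.H925V

open Polynomial Vale.Agent.P287 Vale.Agent.P287.Theta

variable {f h : ℂ[X][X]} {m : ℕ} {z : Fin 6 → ℂ} {c6 : ℂ}
  {β : Fin 3 → ℂ[X][X]} {a : Matrix (Fin 3) (Fin 3) ℂ[X][X]}

/-- the adjugate of a symmetric matrix of size three, and its minors -/
lemma adj_entries (ha : a.IsSymm) :
    a.adjugate 0 0 = a 1 1 * a 2 2 - a 1 2 * a 1 2 ∧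
    a.adjugate 0 1 = a 0 2 * a 1 2 - a 0 1 * a 2 2 ∧
    a.adjugate 0 2 = a 0 1 * a 1 2 - a 0 2 * a 1 1 ∧
    a.adjugate 1 1 = a 0 0 * a 2 2 - a 0 2 * a 0 2 ∧
    a.adjugate 1 2 = a 0 1 * a 0 2 - a 0 0 * a 1 2 ∧
    a.adjugate 2 2 = a 0 0 * a 1 1 - a 0 1 * a 0 1 ∧
    a.adjugate 1 0 = a.adjugate 0 1 ∧ a.adjugate 2 0 = a.adjugate 0 2 ∧
    a.adjugate 2 1 = a.adjugate 1 2 := by
  have e1 : a 1 0 = a 0 1 := ha.apply 0 1
  have e2 : a 2 0 = a 0 2 := ha.apply 0 2
  have e3 : a 2 1 = a 1 2 := ha.apply 1 2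
  rw [Matrix.adjugate_fin_three]
  refine ⟨?_, ?_, ?_, ?_, ?_, ?_, ?_, ?_, ?_⟩
  · change a 1 1 * a 2 2 - a 1 2 * a 2 1 = _
    rw [e3]
  · change -(a 0 1 * a 2 2) + a 0 2 * a 2 1 = _
    rw [e3]; ring
  · change a 0 1 * a 1 2 - a 0 2 * a 1 1 = _
    ring
  · change a 0 0 * a 2 2 - a 0 2 * a 2 0 = _
    rw [e2]
  · change -(a 0 0 * a 1 2) + a 0 2 * a 1 0 = _
    rw [e1]; ring
  · change a 0 0 * a 1 1 - a 0 1 * a 1 0 = _
    rw [e1]
  · change -(a 1 0 * a 2 2) + a 1 2 * a 2 0 = -(a 0 1 * a 2 2) + a 0 2 * a 2 1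
    rw [e1, e2, e3]; ring
  · change a 1 0 * a 2 1 - a 1 1 * a 2 0 = a 0 1 * a 1 2 - a 0 2 * a 1 1
    rw [e1, e2, e3]; ring
  · change -(a 0 0 * a 2 1) + a 0 1 * a 2 0 = -(a 0 0 * a 1 2) + a 0 2 * a 1 0
    rw [e1, e2, e3]; ring

lemma det_entries (ha : a.IsSymm) :
    a.det = a 0 0 * (a 1 1 * a 2 2 - a 1 2 * a 1 2) + a 0 1 * (a 0 2 * a 1 2 - a 0 1 * a 2 2) +
      a 0 2 * (a 0 1 * a 1 2 - a 0 2 * a 1 1) := by
  have e1 : a 1 0 = a 0 1 := ha.apply 0 1
  have e2 : a 2 0 = a 0 2 := ha.apply 0 2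
  have e3 : a 2 1 = a 1 2 := ha.apply 1 2
  rw [Matrix.det_fin_three, e1, e2, e3]
  ring

lemma TD_zero_of_isUnit {v : ℂ[X][X]} (h : IsUnit v) : TD 0 v := by
  obtain ⟨c, rfl⟩ := exists_CC_of_isUnit h
  exact TD_CC c

/-- The adjugate is `f κ u uᵀ`, with `u` of degree one. -/
theorem exists_factor (hf : Prime f) (H : AtInfinity f h (2 * m + 4) z c6)
    (hr : RankOneMod f a) (ha : a.IsSymm) (ta : ∀ i j, TD 4 (a i j)) (h0 : a.det = 0)
    (hm : a 0 0 * a 1 1 - a 0 1 * a 0 1 ≠ 0)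
    (hk : ∀ c : Fin 3 → ℂ, (∀ i, ∑ j, a i j * C (C (c j)) = 0) → c = 0) :
    ∃ (κ : ℂ) (u : Fin 3 → ℂ[X][X]), κ ≠ 0 ∧ (∀ i, TD 1 (u i)) ∧
      ∀ i j, a.adjugate i j = f * (C (C κ) * u i * u j) := by
  have hf0 := H.ne_zero
  have hN : ∀ i j, ∃ N, TD 2 N ∧ a.adjugate i j = f * N := by
    intro i j
    obtain ⟨N, hN⟩ := pow_dvd_adjugate (n := 1) hf a hr i j
    rw [pow_one] at hN
    refine ⟨N, ?_, hN⟩
    refine TD_of_mul H.hf H.top_ne ?_
    rw [← hN]
    exact TD_adjugate (n := 2) a ta i j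
  choose N hN2 hN using hN
  obtain ⟨e00, e01, e02, e11, e12, e22, e10, e20, e21⟩ := adj_entries ha
  have hd := det_entries ha
  rw [h0] at hd
  have s10 : N 1 0 = N 0 1 := mul_left_cancel₀ hf0 (by rw [← hN, ← hN, e10])
  have s20 : N 2 0 = N 0 2 := mul_left_cancel₀ hf0 (by rw [← hN, ← hN, e20])
  have s21 : N 2 1 = N 1 2 := mul_left_cancel₀ hf0 (by rw [← hN, ← hN, e21])
  have hff : f * f ≠ 0 := mul_ne_zero hf0 hf0
  have m00 : N 0 2 * N 0 2 = N 2 2 * N 0 0 := by
    refine mul_left_cancel₀ hff ?_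
    have : f * f * (N 0 2 * N 0 2) - f * f * (N 2 2 * N 0 0) =
        a.adjugate 0 2 * a.adjugate 0 2 - a.adjugate 2 2 * a.adjugate 0 0 := by
      rw [hN, hN, hN]; ring
    rw [← sub_eq_zero, this, e00, e02, e22]
    linear_combination (a 1 1) * hd
  have m11 : N 1 2 * N 1 2 = N 2 2 * N 1 1 := by
    refine mul_left_cancel₀ hff ?_
    have : f * f * (N 1 2 * N 1 2) - f * f * (N 2 2 * N 1 1) =
        a.adjugate 1 2 * a.adjugate 1 2 - a.adjugate 2 2 * a.adjugate 1 1 := by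
      rw [hN, hN, hN]; ring
    rw [← sub_eq_zero, this, e11, e12, e22]
    linear_combination (a 0 0) * hd
  have m01 : N 0 2 * N 1 2 = N 2 2 * N 0 1 := by
    refine mul_left_cancel₀ hff ?_
    have : f * f * (N 0 2 * N 1 2) - f * f * (N 2 2 * N 0 1) =
        a.adjugate 0 2 * a.adjugate 1 2 - a.adjugate 2 2 * a.adjugate 0 1 := by
      rw [hN, hN, hN, hN]; ring
    rw [← sub_eq_zero, this, e01, e02, e12, e22]
    linear_combination (-a 0 1) * hd
  have p0 : N 2 2 ≠ 0 := by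
    intro h1
    apply hm
    rw [← e22, hN, h1, mul_zero]
  -- the kernel
  have hker : ∀ i, a i 0 * N 0 2 + a i 1 * N 1 2 + a i 2 * N 2 2 = 0 := by
    intro i
    refine mul_left_cancel₀ hf0 ?_
    have h1 := congrFun (congrFun (Matrix.mul_adjugate a) i) 2
    rw [h0, zero_smul, Matrix.mul_apply, Fin.sum_univ_three, hN, hN, hN] at h1
    rw [mul_zero]
    refine Eq.trans ?_ h1
    ring
  by_cases hsq : Squarefree (N 2 2)
  · obtain ⟨c0, hc0⟩ := hsq.isRadical 2 (N 0 2) ⟨N 0 0, by rw [sq, m00]⟩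
    obtain ⟨c1, hc1⟩ := hsq.isRadical 2 (N 1 2) ⟨N 1 1, by rw [sq, m11]⟩
    have n00 : N 0 0 = N 2 2 * (c0 * c0) := mul_left_cancel₀ p0 (by rw [← m00, hc0]; ring)
    have n11 : N 1 1 = N 2 2 * (c1 * c1) := mul_left_cancel₀ p0 (by rw [← m11, hc1]; ring)
    have n01 : N 0 1 = N 2 2 * (c0 * c1) := mul_left_cancel₀ p0 (by rw [← m01, hc0, hc1]; ring)
    have hdeg : ∀ (c q : ℂ[X][X]), TD 2 q → q = N 2 2 * (c * c) →
        c = 0 ∨ (Th (N 2 2)).natDegree + 2 * (Th c).natDegree ≤ 2 := by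
      intro c q hq hqc
      by_cases hc : c = 0
      · exact Or.inl hc
      right
      have h1 := natDegree_Th_mul p0 (mul_ne_zero hc hc)
      rw [natDegree_Th_mul hc hc, ← hqc] at h1
      have h2 : (Th q).natDegree ≤ 2 := hq
      omega
    by_cases hp : TD 0 (N 2 2)
    · obtain ⟨κ, hκ⟩ := TD_zero_iff hp
      refine ⟨κ, ![c0, c1, 1], ?_, ?_, ?_⟩
      · rintro rfl
        exact p0 (by rw [hκ, C_0, C_0])
      · have h1 : ∀ c q : ℂ[X][X], TD 2 q → q = N 2 2 * (c * c) → TD 1 c := by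
          intro c q hq hqc
          rcases hdeg c q hq hqc with h2 | h2
          · rw [h2]; exact TD_zero 1
          · change (Th c).natDegree ≤ 1
            omega
        intro i
        fin_cases i
        · exact h1 c0 _ (hN2 0 0) n00
        · exact h1 c1 _ (hN2 1 1) n11
        · simp only [Fin.reduceFinMk, Matrix.cons_val]
          have := (TD_CC 1).mono (zero_le_one)
          simpa using this
      · intro i j
        rw [hN]
        congr 1
        fin_cases i <;> fin_cases j <;>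
          simp only [Fin.zero_eta, Fin.mk_one, Fin.reduceFinMk, Matrix.cons_val, s10, s20, s21,
            n00, n11, n01, hc0, hc1, ← hκ, Matrix.cons_val_zero, Matrix.cons_val_one] <;> ring
    · exfalso
      have hp1 : 1 ≤ (Th (N 2 2)).natDegree := by
        by_contra h1
        exact hp (show (Th (N 2 2)).natDegree ≤ 0 by omega)
      have h1 : ∀ c q : ℂ[X][X], TD 2 q → q = N 2 2 * (c * c) → TD 0 c := by
        intro c q hq hqc
        rcases hdeg c q hq hqc with h2 | h2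
        · rw [h2]; exact TD_zero 0
        · change (Th c).natDegree ≤ 0
          omega
      obtain ⟨γ0, rfl⟩ := TD_zero_iff (h1 c0 _ (hN2 0 0) n00)
      obtain ⟨γ1, rfl⟩ := TD_zero_iff (h1 c1 _ (hN2 1 1) n11)
      have h2 := hk ![γ0, γ1, 1] (by
        intro i
        refine mul_left_cancel₀ p0 ?_
        rw [mul_zero, ← hker i, hc0, hc1, Fin.sum_univ_three]
        simp only [Matrix.cons_val, Matrix.cons_val_zero, Matrix.cons_val_one, C_1]
        ring)
      have := congrFun h2 2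
      simp at this
  · rw [Squarefree] at hsq
    push Not at hsq
    obtain ⟨v, ⟨l, hl⟩, hvu⟩ := hsq
    have hv0 : v ≠ 0 := by
      rintro rfl
      exact p0 (by rw [hl]; ring)
    have hl0 : l ≠ 0 := by
      rintro rfl
      exact p0 (by rw [hl]; ring)
    have hv1 : 1 ≤ (Th v).natDegree := by
      by_contra h1
      obtain ⟨c, hc⟩ := TD_zero_iff (show TD 0 v from (show (Th v).natDegree ≤ 0 by omega))
      apply hvu
      rw [hc]
      apply isUnit_CC
      rintro rfl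
      exact hv0 (by rw [hc, C_0, C_0])
    have hd2 : (Th (N 2 2)).natDegree ≤ 2 := hN2 2 2
    rw [hl, natDegree_Th_mul (mul_ne_zero hv0 hv0) hl0, natDegree_Th_mul hv0 hv0] at hd2
    obtain ⟨L, hL⟩ := TD_zero_iff (show TD 0 l from (show (Th l).natDegree ≤ 0 by omega))
    have hL0 : L ≠ 0 := by
      rintro rfl
      exact hl0 (by rw [hL, C_0, C_0])
    have hv1' : (Th v).natDegree = 1 := by omega
    have hdv : ∀ q r : ℂ[X][X], q * q = N 2 2 * r → v ∣ q := by
      intro q r hqr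
      refine (UniqueFactorizationMonoid.pow_dvd_pow_iff_dvd two_ne_zero).1 ⟨l * r, ?_⟩
      rw [sq, hqr, hl]; ring
    obtain ⟨w0, hw0⟩ := hdv _ _ m00
    obtain ⟨w1, hw1⟩ := hdv _ _ m11
    have hvv : v * v ≠ 0 := mul_ne_zero hv0 hv0
    have n00 : w0 * w0 = l * N 0 0 := mul_left_cancel₀ hvv (by
      have := m00; rw [hw0, hl] at this; linear_combination this)
    have n11 : w1 * w1 = l * N 1 1 := mul_left_cancel₀ hvv (by
      have := m11; rw [hw1, hl] at this; linear_combination this)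
    have n01 : w0 * w1 = l * N 0 1 := mul_left_cancel₀ hvv (by
      have := m01; rw [hw0, hw1, hl] at this; linear_combination this)
    have hLi : (C (C L⁻¹) : ℂ[X][X]) * l = 1 := by
      rw [hL, ← C_mul, ← C_mul, inv_mul_cancel₀ hL0, C_1, C_1]
    have htd : ∀ w q : ℂ[X][X], TD 2 q → w * w = l * q → TD 1 w := by
      intro w q hq hw
      by_cases hw0 : w = 0
      · rw [hw0]; exact TD_zero 1
      have h1 := natDegree_Th_mul hw0 hw0
      have h2 : TD 2 (w * w) := by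
        rw [hw, hL]
        exact hq.smul L
      have h3 : (Th (w * w)).natDegree ≤ 2 := h2
      change (Th w).natDegree ≤ 1
      omega
    refine ⟨L⁻¹, ![w0, w1, l * v], inv_ne_zero hL0, ?_, ?_⟩
    · intro i
      fin_cases i
      · exact htd w0 _ (hN2 0 0) n00
      · exact htd w1 _ (hN2 1 1) n11
      · simp only [Fin.reduceFinMk, Matrix.cons_val]
        rw [hL]
        exact TD.smul (show TD 1 v from hv1'.le) L
    · intro i j
      rw [hN]
      congr 1
      fin_cases i <;> fin_cases j <;>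
        simp only [Fin.zero_eta, Fin.mk_one, Fin.reduceFinMk, Matrix.cons_val, s10, s20, s21,
            hw0, hw1, Matrix.cons_val_zero, Matrix.cons_val_one]
      · linear_combination (-(C (C L⁻¹))) * n00 - (N 0 0) * hLi
      · linear_combination (-(C (C L⁻¹))) * n01 - (N 0 1) * hLi
      · linear_combination (-(v * w0)) * hLi
      · linear_combination (-(C (C L⁻¹))) * n01 - (N 0 1) * hLi
      · linear_combination (-(C (C L⁻¹))) * n11 - (N 1 1) * hLi
      · linear_combination (-(v * w1)) * hLi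
      · linear_combination (-(v * w0)) * hLi
      · linear_combination (-(v * w1)) * hLi
      · rw [hl]
        linear_combination (-(v * v * l)) * hLi

end Vale.Agent.P287.H925V
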