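import Vale.Agent.P287.H925V.Full
import Vale.Agent.P287.H597.OddTheta

/-!
A section of degree `m + 3`: the cubic fourfold is rational.
-/

namespace Vale.Agent.P287.H925V

open MvPolynomial Vale.Agent.P287 Vale.Agent.P287.Theta Vale.Agent.P287.H925
  Vale.Agent.P287.H925.NetResult

/-- The case of a section of degree `m + 3`. -/
theorem rational_of_conic : H597.StmtConic := by
  intro M hM hdeg hs hsm g m hm hg hgr hgf hsq b hb hb2 hfb
  have hdet : (M.submatrix sw sw).det = M.det := Matrix.det_submatrix_equiv_self sw M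
  have hadj : (M.submatrix sw sw).adjugate 0 0 = M.adjugate 3 3 := by
    rw [Matrix.adjugate_submatrix_equiv_self]
    rfl
  have hqsw : ∀ v : Fin 4 → RatK,
      dotProduct v (((M.submatrix sw sw).map (aeval tvec : P3 →ₐ[ℂ] RatK)).mulVec v) =
      dotProduct (v ∘ sw) ((M.map (aeval tvec : P3 →ₐ[ℂ] RatK)).mulVec (v ∘ sw)) := by
    intro v
    simp only [dotProduct, Matrix.mulVec, Matrix.map_apply, Matrix.submatrix_apply]
    rw [← Equiv.sum_comp sw]
    refine Finset.sum_congr rfl fun i _ => ?_
    rw [← Equiv.sum_comp sw]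
    simp
  have hiso : ∀ v : Fin 4 → RatK, v ≠ 0 →
      dotProduct v (((M.submatrix sw sw).map (aeval tvec : P3 →ₐ[ℂ] RatK)).mulVec v) = 0 →
      RationalHypersurface (cubicOf M) := by
    intro v hv hqv
    refine rational_of_isotropic_matrix M hdeg hs (v ∘ sw) ?_ ?_
    · intro h
      apply hv
      funext i
      have := congrFun h (sw i)
      simpa using this
    · rw [← hqsw]
      exact hqv
  by_cases hδ : M.adjugate 3 3 = 0
  · obtain ⟨v, hv, hqv⟩ := isotropic_of_minor (M := M.submatrix sw sw) (by rw [hadj, hδ])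
    exact hiso v hv hqv
  obtain ⟨v, hv, hqv⟩ := isotropic_of_section (M := M.submatrix sw sw) (g := g) (m := m)
    (fibShape_sw hM hdeg) (by rw [hdet]; exact hsm) (by rw [hadj]; exact hδ) hm hgr hg
    (by rw [hdet]; exact hgf) (by rw [hdet]; exact hsq) (B := b) hb
    (by rw [hdet, hadj]; exact hb2) (by rw [hdet]; exact hfb)
  exact hiso v hv hqv

end Vale.Agent.P287.H925V
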