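import Vale.Agent.P287.H925V.Three

/-!
If there is no section of degree `m + 3`, the squares of the sections of degree `m + 4` are
squarefree.
-/

namespace Vale.Agent.P287.H925V

open Polynomial Vale.Agent.P287 Vale.Agent.P287.Theta

/-- No section of degree `m + 3`. -/
def NoLow (f h : ℂ[X][X]) (m : ℕ) : Prop :=
  ∀ B a : ℂ[X][X], TD (m + 3) B → f ∣ B ^ 2 - h * a → f ∣ B

variable {f h : ℂ[X][X]} {m : ℕ} {z : Fin 6 → ℂ} {c6 : ℂ}

lemma natDegree_Th_mul {p q : ℂ[X][X]} (hp : p ≠ 0) (hq : q ≠ 0) :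
    (Th (p * q)).natDegree = (Th p).natDegree + (Th q).natDegree := by
  rw [map_mul, natDegree_mul]
  · rwa [Ne, map_eq_zero_iff _ Th_injective]
  · rwa [Ne, map_eq_zero_iff _ Th_injective]

lemma dvd_of_sq {f B : ℂ[X][X]} (hf : Prime f) (h : f ∣ B ^ 2) : f ∣ B := hf.dvd_of_dvd_pow h

/-- The square of a section is squarefree. -/
lemma TD_zero_of_sq (hf : Prime f)
    (hsm : ∀ x y : ℂ, evalEval x y f = 0 →
      f ∉ (Ideal.span {C (X - C x), X - C (C y)} : Ideal ℂ[X][X]) ^ 2)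
    (H : AtInfinity f h (2 * m + 4) z c6) (hlow : NoLow f h m) {B α v l : ℂ[X][X]}
    (hα : TD 4 α) (hBα : f ∣ B ^ 2 - h * α) (hfB : ¬ f ∣ B) (hv : α = v ^ 2 * l) : TD 0 v := by
  have hα0 : α ≠ 0 := by
    rintro rfl
    rw [mul_zero, sub_zero] at hBα
    exact hfB (dvd_of_sq hf hBα)
  have hv0 : v ≠ 0 := by
    rintro rfl
    exact hα0 (by rw [hv]; ring)
  have hl0 : l ≠ 0 := by
    rintro rfl
    exact hα0 (by rw [hv]; ring)
  have hdeg : (Th α).natDegree = 2 * (Th v).natDegree + (Th l).natDegree := by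
    rw [hv, natDegree_Th_mul (pow_ne_zero 2 hv0) hl0, sq, natDegree_Th_mul hv0 hv0]
    ring
  have h4 : (Th α).natDegree ≤ 4 := hα
  by_contra ht
  have ht1 : 1 ≤ (Th v).natDegree := by
    by_contra h0
    exact ht (show (Th v).natDegree ≤ 0 by omega)
  set t := (Th v).natDegree with htd
  have hl : TD (2 * (2 - t)) l := by
    change (Th l).natDegree ≤ 2 * (2 - t)
    omega
  have hfv : ¬ f ∣ v := by
    intro h1
    apply hfB
    apply dvd_of_sq hf
    have : B ^ 2 = (B ^ 2 - h * α) + v * (h * v * l) := by rw [hv]; ring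
    rw [this]
    exact dvd_add hBα (h1.mul_right _)
  obtain ⟨d, hd⟩ := sqrt_dvd f hf hsm B v (h * l) hfv (by
    have : B ^ 2 - v ^ 2 * (h * l) = B ^ 2 - h * α := by rw [hv]; ring
    rwa [this])
  have hdl : f ∣ d ^ 2 - h * l := by
    have h1 : f ∣ v ^ 2 * (d ^ 2 - h * l) := by
      have : v ^ 2 * (d ^ 2 - h * l) = (B ^ 2 - h * α) - (B - v * d) * (B + v * d) := by
        rw [hv]; ring
      rw [this]
      exact dvd_sub hBα (hd.mul_right _)
    exact (hf.dvd_or_dvd h1).resolve_left fun h2 => hfv (dvd_of_sq hf h2)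
  obtain ⟨d', hd', hfd'⟩ := lower_sq H hl (Th d).natDegree d le_rfl hdl
  have h5 : f ∣ d' := by
    refine hlow d' l (hd'.mono (by omega)) ?_
    have : d' ^ 2 - h * l = (d ^ 2 - h * l) - (d - d') * (d + d') := by ring
    rw [this]
    exact dvd_sub hdl (hfd'.mul_right _)
  apply hfB
  have : B = (B - v * d) + v * (d - d') + v * d' := by ring
  rw [this]
  exact dvd_add (dvd_add hd (hfd'.mul_left _)) (h5.mul_left _)

/-- The square of a section has full degree. -/
lemma top_ne_of_section (hf : Prime f)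
    (H : AtInfinity f h (2 * m + 4) z c6) (hlow : NoLow f h m) {B α : ℂ[X][X]}
    (hB : TD (m + 4) B) (hα : TD 4 α) (hBα : f ∣ B ^ 2 - h * α) (hfB : ¬ f ∣ B) :
    ¬ TD 3 α := by
  intro h3
  apply hfB
  obtain ⟨b, hb⟩ := hBα
  have h1 : TD (2 * (m + 4)) (f * b) := by
    rw [← hb]
    exact (hB.pow 2).sub ((H.hh.mul hα).mono (by omega))
  have h2 : TD (2 * m + 2) b := by
    refine TD_of_mul H.hf H.top_ne ?_
    rwa [show 6 + (2 * m + 2) = 2 * (m + 4) by omega]
  have h4 := top_mul H.hf h2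
  rw [show 6 + (2 * m + 2) = 2 * (m + 4) by omega, ← hb, top_sub,
    top_eq_zero (H.hh.mul h3) (by omega), sub_zero, top_pow hB 2] at h4
  obtain ⟨w, hw⟩ := H.lower hB (by
    intro i
    have h5 := congrArg (eval (z i)) h4
    rw [eval_pow, eval_mul, H.eval_topf, zero_mul] at h5
    exact pow_eq_zero_iff two_ne_zero |>.mp h5)
  have h6 := hlow _ α hw (by
    have : (B - f * w) ^ 2 - h * α = f * (b - 2 * B * w + f * w ^ 2) := by
      linear_combination hb
    rw [this]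
    exact Dvd.intro _ rfl)
  have : B = (B - f * w) + f * w := by ring
  rw [this]
  exact dvd_add h6 (Dvd.intro _ rfl)

/-- combinations of sections -/
noncomputable def comb (β : Fin 3 → ℂ[X][X]) (c : Fin 3 → ℂ) : ℂ[X][X] := ∑ i, C (C (c i)) * β i

/-- the products of combinations of sections -/
noncomputable def gr (a : Matrix (Fin 3) (Fin 3) ℂ[X][X]) (c d : Fin 3 → ℂ) : ℂ[X][X] :=
  ∑ i, ∑ j, C (C (c i)) * C (C (d j)) * a i j

variable {β : Fin 3 → ℂ[X][X]} {a : Matrix (Fin 3) (Fin 3) ℂ[X][X]}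

lemma Three.comb_mul (T : Three f h m β a) (c d : Fin 3 → ℂ) :
    f ∣ comb β c * comb β d - h * gr a c d := by
  have : comb β c * comb β d - h * gr a c d =
      ∑ i, ∑ j, C (C (c i)) * C (C (d j)) * (β i * β j - h * a i j) := by
    rw [comb, comb, gr, Finset.sum_mul_sum, Finset.mul_sum, ← Finset.sum_sub_distrib]
    refine Finset.sum_congr rfl fun i _ => ?_
    rw [Finset.mul_sum, ← Finset.sum_sub_distrib]
    refine Finset.sum_congr rfl fun j _ => ?_
    ring
  rw [this]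
  exact Finset.dvd_sum fun i _ => Finset.dvd_sum fun j _ => (T.mul i j).mul_left _

lemma Three.comb_ne (T : Three f h m β a) {c : Fin 3 → ℂ} (hc : c ≠ 0) : ¬ f ∣ comb β c :=
  fun h1 => hc (T.ind c h1)

lemma Three.comb_td (T : Three f h m β a) (c : Fin 3 → ℂ) : TD (m + 4) (comb β c) :=
  TD.sum _ fun i _ => (T.td i).smul _

lemma Three.gr_td (T : Three f h m β a) (c d : Fin 3 → ℂ) : TD 4 (gr a c d) :=
  TD.sum _ fun i _ => TD.sum _ fun j _ => by
    rw [mul_assoc]
    exact ((T.ta i j).smul _).smul _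

/-- no constant kernel -/
lemma Three.no_kernel (T : Three f h m β a) (hf : Prime f) {c : Fin 3 → ℂ}
    (hc : ∀ i, ∑ j, a i j * C (C (c j)) = 0) : c = 0 := by
  by_contra h0
  apply T.comb_ne h0
  apply dvd_of_sq hf
  have h1 := T.comb_mul c c
  have h2 : gr a c c = 0 := by
    rw [gr]
    refine Finset.sum_eq_zero fun i _ => ?_
    have h3 : ∑ j, C (C (c i)) * C (C (c j)) * a i j = C (C (c i)) * ∑ j, a i j * C (C (c j)) := by
      rw [Finset.mul_sum]
      exact Finset.sum_congr rfl fun j _ => by ring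
    rw [h3, hc, mul_zero]
  rwa [h2, mul_zero, sub_zero, ← sq] at h1

/-- The rank is not one. -/
lemma Three.minor_ne (T : Three f h m β a) (hf : Prime f) (hfh : ¬ f ∣ h)
    (hsm : ∀ x y : ℂ, evalEval x y f = 0 →
      f ∉ (Ideal.span {C (X - C x), X - C (C y)} : Ideal ℂ[X][X]) ^ 2)
    (H : AtInfinity f h (2 * m + 4) z c6) (hlow : NoLow f h m) :
    a 0 0 * a 1 1 - a 0 1 * a 0 1 ≠ 0 := by
  intro h0
  set e0 : Fin 3 → ℂ := ![1, 0, 0] with he0
  have hB : comb β e0 = β 0 := by simp [comb, he0, Fin.sum_univ_three]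
  have hfB : ¬ f ∣ β 0 := by
    rw [← hB]
    apply T.comb_ne
    intro h1
    have := congrFun h1 0
    simp [he0] at this
  have hBα : f ∣ β 0 ^ 2 - h * a 0 0 := by rw [sq]; exact T.mul 0 0
  have hsq : Squarefree (a 0 0) := by
    rintro v ⟨l, hl⟩
    have h1 := TD_zero_of_sq hf hsm H hlow (T.ta 0 0) hBα hfB (v := v) (l := l)
      (by rw [hl]; ring)
    obtain ⟨c, rfl⟩ := TD_zero_iff h1
    apply isUnit_CC
    rintro rfl
    rw [C_0, C_0, zero_mul, zero_mul] at hl
    rw [hl, mul_zero, sub_zero] at hBα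
    exact hfB (dvd_of_sq hf hBα)
  have h1 : a 0 0 ∣ a 0 1 ^ 2 := ⟨a 1 1, by linear_combination -h0⟩
  obtain ⟨q, hq⟩ := (hsq.isRadical 2 _ h1)
  have h00 : a 0 0 ≠ 0 := hsq.ne_zero
  have hq0 : TD 0 q := by
    have h3 := top_ne_of_section hf H hlow (T.td 0) (T.ta 0 0) hBα hfB
    refine TD_of_mul (m := 4) (T.ta 0 0) ?_ (by rw [← hq]; exact T.ta 0 1)
    intro h4
    exact h3 (TD_of_top_eq_zero (T.ta 0 0) h4)
  obtain ⟨κ, rfl⟩ := TD_zero_iff hq0
  -- `β 1 - κ β 0` vanishes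
  have h2 : f ∣ β 0 * (β 1 - C (C κ) * β 0) := by
    have : β 0 * (β 1 - C (C κ) * β 0) =
        (β 0 * β 1 - h * a 0 1) - C (C κ) * (β 0 ^ 2 - h * a 0 0) := by
      rw [hq]; ring
    rw [this]
    exact dvd_sub (T.mul 0 1) (hBα.mul_left _)
  have h3 := (hf.dvd_or_dvd h2).resolve_left hfB
  have h4 := T.ind ![-κ, 1, 0] (by
    have : ∑ i, C (C ((![-κ, 1, 0] : Fin 3 → ℂ) i)) * β i = β 1 - C (C κ) * β 0 := by
      simp [Fin.sum_univ_three]
      ring
    rw [this]
    exact h3)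
  have := congrFun h4 1
  simp at this

end Vale.Agent.P287.H925V
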