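import Vale.Agent.P287.Theta.HNetGlobal
import Vale.Agent.P287.Theta.Core

/-!
Three sections `β i` of degree `m + 4` with `β i * β j ≡ h * a i j` modulo the sextic `f`, where `h`
has degree `2 m + 4`, and `a i j` has degree `4`.
-/

namespace Vale.Agent.P287.H925V

open Polynomial Vale.Agent.P287 Vale.Agent.P287.Theta

/-- Three sections and their products. -/
structure Three (f h : ℂ[X][X]) (m : ℕ) (β : Fin 3 → ℂ[X][X])
    (a : Matrix (Fin 3) (Fin 3) ℂ[X][X]) : Prop where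
  td : ∀ i, TD (m + 4) (β i)
  sa : a.IsSymm
  ta : ∀ i j, TD 4 (a i j)
  mul : ∀ i j, f ∣ β i * β j - h * a i j
  ind : ∀ c : Fin 3 → ℂ, f ∣ ∑ i, C (C (c i)) * β i → c = 0

variable {f h : ℂ[X][X]} {m : ℕ} {z : Fin 6 → ℂ} {c6 : ℂ}

theorem exists_three (hpf : Prime f) (hpfh : ¬ f ∣ h)
    (H : AtInfinity f h (2 * m + 4) z c6) (hm : 1 ≤ m)
    (hsm : ∀ x y : ℂ, evalEval x y f = 0 →
      f ∉ (Ideal.span {C (X - C x), X - C (C y)} : Ideal ℂ[X][X]) ^ 2)
    (hev : ∀ x y : ℂ, evalEval x y f = 0 →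
      ∃ u ε : ℂ[X][X], evalEval x y u ≠ 0 ∧ f ∣ u * h - ε ^ 2) :
    ∃ β a, Three f h m β a := by
  obtain ⟨ι, γ, u, hγ, hu⟩ := exists_family hpf hpfh hsm hev
  obtain ⟨β, hβW, hβn, hβγ, hβi⟩ := exists_sections f h hpf
    ((TD_iff 6 _).mp H.hf) ⟨c6, H.hc, H.coeff_six⟩ (2 * m + 4) ((TD_iff _ _).mp H.hh) hpfh γ u hγ
    (fun x y hx _ => hu x y hx) (m + 4) 3 (by omega) (by omega)
  have hβT : ∀ i, TD (m + 4) (β i) := fun i => (TD_iff _ _).mpr (hβW i)
  have h1 : ∀ i j, ∃ a, TD 4 a ∧ f ∣ β i * β j - h * a := by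
    intro i j
    obtain ⟨a, ha⟩ := mul_sections hpf hpfh hγ hu (hβγ i) (hβγ j)
    refine H.reduce' (by omega) (k := 4) ?_ (Th a).natDegree a le_rfl ha
    have := (hβT i).mul (hβT j)
    rwa [show m + 4 + (m + 4) = 2 * m + 4 + 4 by ring] at this
  choose A hA1 hA2 using h1
  refine ⟨β, Matrix.of A, hβT, ?_, hA1, hA2, hβi⟩
  refine Matrix.IsSymm.ext fun i j => ?_
  rw [Matrix.of_apply, Matrix.of_apply]
  have h2 : f ∣ h * (A j i - A i j) := by
    have : h * (A j i - A i j) = (β i * β j - h * A i j) - (β j * β i - h * A j i) := by ring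
    rw [this]
    exact dvd_sub (hA2 i j) (hA2 j i)
  have h3 := (hpf.dvd_or_dvd h2).resolve_left hpfh
  exact sub_eq_zero.mp (H.eq_zero_of_dvd (((hA1 j i).sub (hA1 i j)).mono (by norm_num)) h3)

/-- The products have rank one modulo `f`. -/
lemma Three.rankOne {β : Fin 3 → ℂ[X][X]} {a : Matrix (Fin 3) (Fin 3) ℂ[X][X]} (hf : Prime f)
    (hfh : ¬ f ∣ h) (T : Three f h m β a) : RankOneMod f a := by
  intro i j k l
  have hA := T.mul
  have h1 : f ∣ (h * h) * (a i j * a k l - a i l * a k j) := by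
    have : (h * h) * (a i j * a k l - a i l * a k j) =
        (β i * β l) * (β k * β j - h * a k j) + (h * a k j) * (β i * β l - h * a i l)
        - (β i * β j) * (β k * β l - h * a k l) - (h * a k l) * (β i * β j - h * a i j) := by ring
    rw [this]
    exact dvd_sub (dvd_sub (dvd_add ((hA k j).mul_left _) ((hA i l).mul_left _))
      ((hA k l).mul_left _)) ((hA i j).mul_left _)
  rcases hf.dvd_or_dvd h1 with h2 | h2
  · rcases hf.dvd_or_dvd h2 with h3 | h3 <;> exact absurd h3 hfh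
  · exact h2

/-- Lowering the degree of a square root. -/
lemma lower_sq (H : AtInfinity f h (2 * m + 4) z c6) {k : ℕ} {l : ℂ[X][X]} (hl : TD (2 * k) l)
    (N : ℕ) : ∀ d, TD N d → f ∣ d ^ 2 - h * l → ∃ d', TD (m + 2 + k) d' ∧ f ∣ d - d' := by
  induction N with
  | zero => exact fun d hd _ => ⟨d, hd.mono (by omega), by simp⟩
  | succ N ih =>
    intro d hd hfd
    by_cases hN : N + 1 ≤ m + 2 + k
    · exact ⟨d, hd.mono hN, by simp⟩
    obtain ⟨b, hb⟩ := hfd
    have e1 : N + 1 + (N + 1) = 2 * (N + 1) := by ring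
    have h0 : TD (2 * (N + 1)) (d ^ 2) := hd.pow 2
    have h1 : TD (2 * (N + 1)) (f * b) := by
      rw [← hb]
      exact h0.sub ((H.hh.mul hl).mono (by omega))
    have h2 : TD (2 * N - 4) b := by
      refine TD_of_mul H.hf H.top_ne ?_
      rwa [show 6 + (2 * N - 4) = 2 * (N + 1) by omega]
    have h3 := top_mul H.hf h2
    rw [show 6 + (2 * N - 4) = 2 * (N + 1) by omega, ← hb, top_sub,
      top_eq_zero (H.hh.mul hl) (by omega), sub_zero, top_pow hd 2] at h3
    obtain ⟨w, hw⟩ := H.lower hd (by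
      intro i
      have h4 := congrArg (eval (z i)) h3
      rw [eval_pow, eval_mul, H.eval_topf, zero_mul] at h4
      exact pow_eq_zero_iff two_ne_zero |>.mp h4)
    obtain ⟨d', hd', hfd'⟩ := ih _ hw (by
      have : (d - f * w) ^ 2 - h * l = f * (b - 2 * d * w + f * w ^ 2) := by
        linear_combination hb
      rw [this]
      exact Dvd.intro _ rfl)
    refine ⟨d', hd', ?_⟩
    have : d - d' = (d - f * w - d') + f * w := by ring
    rw [this]
    exact dvd_add hfd' (Dvd.intro _ rfl)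

end Vale.Agent.P287.H925V
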