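import Vale.Agent.P287.H925V.Iso

/-!
Symmetric matrices of quadrics with determinant `f`.
-/

namespace Vale.Agent.P287.H925V

open Polynomial Vale.Agent.P287 Vale.Agent.P287.Theta

/-- The matrix of quadrics, in the chart. -/
theorem exists_quadrics {f h : ℂ[X][X]} {m : ℕ} {z : Fin 6 → ℂ} {c6 : ℂ}
    {a : Matrix (Fin 3) (Fin 3) ℂ[X][X]} (hf : Prime f)
    (H : AtInfinity f h (2 * m + 4) z c6) (hr : RankOneMod f a) (ha : a.IsSymm)
    (ta : ∀ i j, TD 4 (a i j)) (h0 : a.det ≠ 0) :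
    ∃ (A : Matrix (Fin 3) (Fin 3) ℂ[X][X]) (c0 : ℂ), c0 ≠ 0 ∧ A.IsSymm ∧ (∀ i j, TD 2 (A i j)) ∧
      A * a = f • (1 : Matrix (Fin 3) (Fin 3) ℂ[X][X]) ∧ A.det = C (C c0) * f := by
  have hf0 := H.ne_zero
  obtain ⟨c', hc'⟩ := pow_dvd_det hf a hr
  have hdet12 : TD 12 a.det := TD_det a ta
  have hf2 : TD 12 (f ^ 2) := H.hf.pow 2
  have hf2top : top 12 (f ^ 2) ≠ 0 := by
    have := top_pow H.hf 2
    rw [show 2 * 6 = 12 from rfl] at this
    rw [this]
    exact pow_ne_zero _ H.top_ne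
  have hc'0 : TD 0 c' := by
    refine TD_of_mul hf2 hf2top ?_
    rw [← hc']
    exact hdet12
  obtain ⟨κ, rfl⟩ := TD_zero_iff hc'0
  have hκ : κ ≠ 0 := by
    rintro rfl
    rw [C_0, C_0, mul_zero] at hc'
    exact h0 hc'
  choose M0 hM0 using fun i j => pow_dvd_adjugate (n := 1) hf a hr i j
  simp only [pow_one] at hM0
  have hM02 : ∀ i j, TD 2 (M0 i j) := by
    intro i j
    refine TD_of_mul H.hf H.top_ne ?_
    rw [← hM0]
    exact TD_adjugate (n := 2) a ta i j
  have hκi : (C (C κ⁻¹) : ℂ[X][X]) * C (C κ) = 1 := by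
    rw [← C_mul, ← C_mul, inv_mul_cancel₀ hκ, C_1, C_1]
  set A : Matrix (Fin 3) (Fin 3) ℂ[X][X] := Matrix.of fun i j => C (C κ⁻¹) * M0 i j with hA
  have hAa : A * a = f • (1 : Matrix (Fin 3) (Fin 3) ℂ[X][X]) := by
    have h1 := Matrix.adjugate_mul a
    refine Matrix.ext fun i j => ?_
    have h2 := congrFun (congrFun h1 i) j
    rw [Matrix.mul_apply] at h2
    simp only [hM0] at h2
    have h3 : f * ((A * a) i j) = f * ((f • (1 : Matrix (Fin 3) (Fin 3) ℂ[X][X])) i j) := by
      have h4 : f * ((A * a) i j) = C (C κ⁻¹) * ∑ k, f * M0 i k * a k j := by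
        rw [Matrix.mul_apply, Finset.mul_sum, Finset.mul_sum]
        refine Finset.sum_congr rfl fun k _ => ?_
        rw [hA, Matrix.of_apply]
        ring
      rw [h4, h2, hc', Matrix.smul_apply, Matrix.smul_apply, smul_eq_mul, smul_eq_mul]
      linear_combination (f ^ 2 * (1 : Matrix (Fin 3) (Fin 3) ℂ[X][X]) i j) * hκi
    exact mul_left_cancel₀ hf0 h3
  refine ⟨A, κ⁻¹, inv_ne_zero hκ, ?_, ?_, hAa, ?_⟩
  · refine Matrix.IsSymm.ext fun i j => ?_
    rw [hA, Matrix.of_apply, Matrix.of_apply]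
    congr 1
    have h1 : a.adjugate j i = a.adjugate i j := by
      have := congrFun (congrFun (Matrix.adjugate_transpose a) j) i
      rw [ha.eq, Matrix.transpose_apply] at this
      exact this.symm
    rw [hM0, hM0] at h1
    exact mul_left_cancel₀ hf0 h1
  · intro i j
    rw [hA, Matrix.of_apply]
    exact (hM02 i j).smul _
  · have h1 : A.det * (f ^ 2 * C (C κ)) = f ^ 3 := by
      rw [← hc', ← Matrix.det_mul, hAa, Matrix.det_smul, Matrix.det_one, mul_one,
        Fintype.card_fin]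
    refine mul_right_cancel₀ (pow_ne_zero 2 hf0) ?_
    have h2 : A.det * f ^ 2 = (C (C κ⁻¹) * C (C κ)) * (A.det * f ^ 2) := by
      rw [hκi, one_mul]
    rw [h2]
    linear_combination (C (C κ⁻¹)) * h1

/-- Three sections, in homogeneous form. -/
structure HThree (f h : R3) (m : ℕ) (β : Fin 3 → R3) (a : Matrix (Fin 3) (Fin 3) R3) : Prop where
  dβ : ∀ i, (β i).IsHomogeneous (m + 4)
  sa : a.IsSymm
  da : ∀ i j, (a i j).IsHomogeneous 4
  mul : ∀ i j, f ∣ β i * β j - h * a i j
  ind : ∀ c : Fin 3 → ℂ, f ∣ ∑ i, MvPolynomial.C (c i) * β i → c = 0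

/-- The two outcomes, in homogeneous form: a matrix of quadrics `A` inverse to `a`, or a
degenerate matrix `a`. -/
def Outcome (f : R3) (a : Matrix (Fin 3) (Fin 3) R3) : Prop :=
  (∃ (A : Matrix (Fin 3) (Fin 3) R3) (c0 : ℂ), c0 ≠ 0 ∧ A.IsSymm ∧
    (∀ i j, (A i j).IsHomogeneous 2) ∧ A * a = f • (1 : Matrix (Fin 3) (Fin 3) R3) ∧
    A.det = MvPolynomial.C c0 * f) ∨
  (a.det = 0 ∧ a.adjugate ≠ 0 ∧ ∃ (κ : ℂ) (u : Fin 3 → R3), κ ≠ 0 ∧
    (∀ i, (u i).IsHomogeneous 1) ∧
    ∀ i j, a.adjugate i j = f * (MvPolynomial.C κ * u i * u j))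

lemma dh_smul_one (f : R3) (i j : Fin 3) :
    dh ((f • (1 : Matrix (Fin 3) (Fin 3) R3)) i j) =
      (dh f • (1 : Matrix (Fin 3) (Fin 3) ℂ[X][X])) i j := by
  rw [Matrix.smul_apply, Matrix.smul_apply, smul_eq_mul, smul_eq_mul, map_mul]
  by_cases hij : i = j
  · subst hij
    rw [Matrix.one_apply_eq, Matrix.one_apply_eq, map_one]
  · rw [Matrix.one_apply_ne hij, Matrix.one_apply_ne hij, map_zero]

lemma homog_smul_one {f : R3} (hf : f.IsHomogeneous 6) (i j : Fin 3) :
    ((f • (1 : Matrix (Fin 3) (Fin 3) R3)) i j).IsHomogeneous 6 := by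
  rw [Matrix.smul_apply, smul_eq_mul]
  by_cases hij : i = j
  · subst hij
    rw [Matrix.one_apply_eq, mul_one]
    exact hf
  · rw [Matrix.one_apply_ne hij, mul_zero]
    exact MvPolynomial.isHomogeneous_zero _ _ _

lemma homog_adj {a : Matrix (Fin 3) (Fin 3) R3} (ha : ∀ i j, (a i j).IsHomogeneous 4)
    (i j : Fin 3) : (a.adjugate i j).IsHomogeneous 8 := by
  rw [Matrix.adjugate_fin_succ_eq_det_submatrix]
  have h1 := isHomogeneous_det (X := a.submatrix j.succAbove i.succAbove) (m := 4)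
    (fun _ _ => ha _ _)
  have h2 : ((-1 : R3) ^ ((j : ℕ) + (i : ℕ))).IsHomogeneous 0 := by
    rcases neg_one_pow_eq_or R3 ((j : ℕ) + (i : ℕ)) with h3 | h3 <;> rw [h3]
    · exact MvPolynomial.isHomogeneous_one _ _
    · exact (MvPolynomial.isHomogeneous_one _ _).neg
  have h3 := h2.mul h1
  rwa [zero_add] at h3

lemma HThree.chart {f h : R3} {m : ℕ} {β : Fin 3 → R3} {a : Matrix (Fin 3) (Fin 3) R3}
    (hf : f.IsHomogeneous 6) (hfi : Irreducible f) (T : HThree f h m β a) :
    Three (dh f) (dh h) m (fun i => dh (β i)) (a.map dh) := by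
  refine ⟨fun i => TD_dh (T.dβ i), map_symm' dh T.sa, fun i j => TD_dh (T.da i j), ?_, ?_⟩
  · intro i j
    have h1 := dh_dvd (T.mul i j)
    rwa [map_sub, map_mul, map_mul] at h1
  · intro c hc
    apply T.ind
    have h1 : (∑ i, MvPolynomial.C (c i) * β i).IsHomogeneous (m + 4) := by
      refine MvPolynomial.IsHomogeneous.sum _ _ _ fun i _ => ?_
      have := (MvPolynomial.isHomogeneous_C (Fin 3) (c i)).mul (T.dβ i)
      rwa [zero_add] at this
    refine dvd_of_dh_dvd' hf (by norm_num) hfi h1 ?_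
    rw [map_sum]
    simp only [map_mul, dh_C]
    exact hc

/-- From the chart to forms. -/
theorem hthree_in_chart {f h : R3} {m : ℕ} {z : Fin 6 → ℂ} {c6 : ℂ}
    (hf : f.IsHomogeneous 6) (hfi : Irreducible f) (hs : SmoothTernary f)
    (hh : h.IsHomogeneous (2 * m + 4)) (hm : 1 ≤ m) (hfh : ¬ f ∣ h)
    (H : AtInfinity (dh f) (dh h) (2 * m + 4) z c6)
    (hev : ∀ x y : ℂ, evalEval x y (dh f) = 0 →
      ∃ u ε : ℂ[X][X], evalEval x y u ≠ 0 ∧ dh f ∣ u * dh h - ε ^ 2)
    (hne : ∀ B : R3, B.IsHomogeneous (m + 3) → B ^ 2 ∈ Ideal.span {h, f} → f ∣ B) :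
    ∃ β a, HThree f h m β a ∧ Outcome f a := by
  have hpf : Prime (dh f) := prime_dh hf (by norm_num) hfi
  have hpfh : ¬ dh f ∣ dh h := fun h1 => hfh (dvd_of_dh_dvd' hf (by norm_num) hfi hh h1)
  have hsm := fun x y => smooth_dh hf hs x y
  obtain ⟨β, a, T⟩ := exists_three hpf hpfh H hm hsm hev
  have hlow : NoLow (dh f) (dh h) m := by
    intro B α hB hBα
    obtain ⟨B', hB', hBB'⟩ := exists_homog hB
    obtain ⟨α', hα', hfα'⟩ := H.reduce' (by omega) (k := 2) (p := B ^ 2) (by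
      have := hB.pow 2
      rwa [show 2 * (m + 3) = 2 * m + 4 + 2 by ring] at this) (Th α).natDegree α le_rfl hBα
    obtain ⟨A', hA', hAA'⟩ := exists_homog hα'
    have h4 : dh f ∣ dh (B' ^ 2 - h * A') := by
      rw [map_sub, map_pow, map_mul, hBB', hAA']
      exact hfα'
    have h5 : (B' ^ 2 - h * A').IsHomogeneous (2 * m + 6) := by
      have e1 := hB'.pow 2
      have e2 := hh.mul hA'
      rw [show (m + 3) * 2 = 2 * m + 6 by ring] at e1
      exact e1.sub e2
    obtain ⟨w, hw⟩ := dvd_of_dh_dvd' hf (by norm_num) hfi h5 h4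
    have h7 := hne B' hB' (Ideal.mem_span_pair.mpr ⟨A', w, by linear_combination -hw⟩)
    rw [← hBB']
    exact dh_dvd h7
  have hadj := T.minor_ne hpf hpfh hsm H hlow
  have hr := T.rankOne hpf hpfh
  -- homogenisation
  choose β' hβ' hββ' using fun i => exists_homog (T.td i)
  choose a' ha' haa' using fun i j => exists_homog (T.ta i j)
  have hmap : (Matrix.of a').map dh = a := Matrix.ext fun i j => haa' i j
  have hT : HThree f h m β' (Matrix.of a') := by
    refine ⟨hβ', ?_, ha', ?_, ?_⟩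
    · refine Matrix.IsSymm.ext fun i j => ?_
      refine dh_inj (ha' _ _) (ha' _ _) ?_
      exact (haa' j i).trans ((T.sa.apply i j).trans (haa' i j).symm)
    · intro i j
      have h5 : (β' i * β' j - h * (Matrix.of a') i j).IsHomogeneous (2 * m + 8) := by
        have e1 := (hβ' i).mul (hβ' j)
        have e2 := hh.mul (ha' i j)
        rw [show m + 4 + (m + 4) = 2 * m + 8 by ring] at e1
        exact e1.sub e2
      refine dvd_of_dh_dvd' hf (by norm_num) hfi h5 ?_
      rw [map_sub, map_mul, map_mul, hββ', hββ', Matrix.of_apply, haa']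
      exact T.mul i j
    · intro c hc
      apply T.ind
      have h1 := dh_dvd hc
      rw [map_sum] at h1
      simp only [map_mul, dh_C, hββ'] at h1
      exact h1
  refine ⟨β', Matrix.of a', hT, ?_⟩
  by_cases h0 : a.det = 0
  · right
    have hadj0 : a.adjugate ≠ 0 := by
      intro h1
      apply hadj
      rw [← (adj_entries T.sa).2.2.2.2.2.1, h1]
      rfl
    have hdetd : dh (Matrix.of a').det = a.det := by
      rw [← det_dh, hmap]
    refine ⟨?_, ?_, ?_⟩
    · refine dh_eq_zero (isHomogeneous_det (X := Matrix.of a') ha') ?_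
      rw [hdetd, h0]
    · intro h1
      apply hadj0
      ext1 i j
      rw [← hmap, adj_dh, h1]
      simp
    · obtain ⟨κ, u, hκ, hu, hN⟩ := exists_factor hpf H hr T.sa T.ta h0 hadj
        (fun c hc => T.no_kernel hpf hc)
      choose u' hu' huu' using fun i => exists_homog (hu i)
      refine ⟨κ, u', hκ, hu', ?_⟩
      intro i j
      have h5 : (f * (MvPolynomial.C κ * u' i * u' j)).IsHomogeneous 8 := by
        have e1 := hf.mul (((MvPolynomial.isHomogeneous_C (Fin 3) κ).mul (hu' i)).mul (hu' j))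
        rwa [show 6 + (0 + 1 + 1) = 8 by norm_num] at e1
      refine dh_inj (homog_adj ha' i j) h5 ?_
      rw [← adj_dh, hmap, hN, map_mul, map_mul, map_mul, dh_C, huu', huu']
  · left
    obtain ⟨A, c0, hc0, hA, hA2, hAa, hdet⟩ := exists_quadrics hpf H hr T.sa T.ta h0
    choose A' hA' hAA' using fun i j => exists_homog (hA2 i j)
    have hmapA : (Matrix.of A').map dh = A := Matrix.ext fun i j => hAA' i j
    refine ⟨Matrix.of A', c0, hc0, ?_, hA', ?_, ?_⟩
    · refine Matrix.IsSymm.ext fun i j => ?_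
      refine dh_inj (hA' _ _) (hA' _ _) ?_
      exact (hAA' j i).trans ((hA.apply i j).trans (hAA' i j).symm)
    · refine Matrix.ext fun i j => ?_
      refine dh_inj (m := 6) ?_ (homog_smul_one hf i j) ?_
      · rw [Matrix.mul_apply]
        exact MvPolynomial.IsHomogeneous.sum _ _ _ fun k _ => by
          have := (hA' i k).mul (ha' k j)
          exact this
      · have h1 := congrFun (congrFun hAa i) j
        rw [dh_smul_one, ← h1, Matrix.mul_apply, Matrix.mul_apply, map_sum]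
        simp only [Matrix.of_apply, map_mul, hAA', haa']
    · refine dh_inj (m := 6) ?_ ?_ ?_
      · have := isHomogeneous_det (X := Matrix.of A') hA'
        exact this
      · have := (MvPolynomial.isHomogeneous_C (Fin 3) c0).mul hf
        rwa [zero_add] at this
      · rw [map_mul, dh_C, ← hdet, ← det_dh, hmapA]

end Vale.Agent.P287.H925V
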